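import Crest.Agent.Lib.LT.Auto

/-!
Row 286: the algorithm and its running time.
-/

set_option autoImplicit false
set_option linter.unusedVariables false

namespace Crest.Agent.R286

open Crest.Agent.PT Crest.Agent.LT Crest.Enc

/-- The number of jobs, read off the length of the input. -/
noncomputable def nOf (x : Word) : ℕ :=
  find (x.length + 1) fun i => x.length ≤ (natCode i).length + mulc i i x.length

/-- The transitive closure of the table `Et`. -/
noncomputable def closT (Et : Word) (n n2 : ℕ) : Word :=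
  rounds n2 (n2 + 1) fun T i => T.getD i false = true ∨ Et.getD i false = true ∨
    exlt n fun w => at2 T n (i / n) w ∧ at2 Et n w (i % n)

/-- The number of predecessors. -/
noncomputable def cnt (Lt : Word) (n v : ℕ) : ℕ := cntlt n fun w => at2 Lt n w v

/-- The linear extension: by number of predecessors, then by index. -/
def ko (Lt : Word) (n u v : ℕ) : Prop :=
  cnt Lt n u < cnt Lt n v ∨ (cnt Lt n u = cnt Lt n v ∧ u < v)

/-- Digit `i` of `k` in base `n + 2`. -/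
def dg (n k i : ℕ) : ℕ := dvp k (n + 2) i % (n + 2)

/-- Job `v` lies in the cell with index `k`. -/
def cellP (Lt : Word) (n k v : ℕ) : Prop :=
  (exlt 6 fun i => (dg n k (i + 1) = n ∨ (dg n k (i + 1) < n ∧ at2 Lt n v (dg n k (i + 1)))) ∧
    (n ≤ dg n k (i + 7) ∨ ko Lt n v (dg n k (i + 7)))) ∧
  (allt 2 fun i => n ≤ dg n k (i + 13) ∨ (v ≠ dg n k (i + 13) ∧ ¬ at2 Lt n (dg n k (i + 13)) v)) ∧
  exlt 2 fun i => dg n k (i + 15) = n + 1 ∨ (dg n k (i + 15) < n ∧ at2 Lt n (dg n k (i + 15)) v)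

noncomputable def memT (Lt : Word) (n NN : ℕ) : Word := tab NN fun i => cellP Lt n (i / n) (i % n)

/-- The record of the index `k` is filled. -/
def ok (T : Word) (n k : ℕ) : Prop := at3 T n (n + 2) k 0 0

/-- The indices `k1`, `k2` have filled records and split the cell `k`. -/
def good (Lt M T : Word) (n k k1 k2 : ℕ) : Prop :=
  ok T n k1 ∧ ok T n k2 ∧ k1 % (n + 2) + k2 % (n + 2) + 1 ≤ k % (n + 2) ∧
  (allt n fun v => (at2 M n k1 v → at2 M n k v) ∧ (at2 M n k2 v → at2 M n k v) ∧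
    (at2 M n k1 v → ¬ at2 M n k2 v)) ∧
  (cntlt n fun v => at2 M n k v ∧ ¬ at2 M n k1 v ∧ ¬ at2 M n k2 v) ≤ 3 ∧
  allt n fun u => allt n fun v => at2 M n k u → at2 M n k v → at2 Lt n u v →
    at2 M n k1 u ∨ at2 M n k2 v

noncomputable def w1 (Lt M T : Word) (n N k : ℕ) : ℕ :=
  find N fun k1 => exlt N fun k2 => good Lt M T n k k1 k2

noncomputable def w2 (Lt M T : Word) (n N k : ℕ) : ℕ :=
  find N fun k2 => good Lt M T n k (w1 Lt M T n N k) k2

/-- The glued record. -/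
def glue (M T : Word) (n k1 k2 v t : ℕ) : Prop :=
  (at2 M n k1 v ∧ at3 T n (n + 2) k1 v t) ∨
  (¬ at2 M n k1 v ∧ at2 M n k2 v ∧ k1 % (n + 2) + 1 < t ∧
    at3 T n (n + 2) k2 v (t - (k1 % (n + 2) + 1))) ∨
  (¬ at2 M n k1 v ∧ ¬ at2 M n k2 v ∧ t = k1 % (n + 2) + 1)

/-- One round of the dynamic program at the entry `(k, v, t)`. -/
def dbit (Lt M T : Word) (n N k v t : ℕ) : Prop :=
  (ok T n k ∧ at3 T n (n + 2) k v t) ∨
  (¬ ok T n k ∧ (allt n fun u => ¬ at2 M n k u) ∧ t = 0) ∨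
  (¬ ok T n k ∧ w1 Lt M T n N k < N ∧
    (t = 0 ∨ glue M T n (w1 Lt M T n N k) (w2 Lt M T n N k) v t))

noncomputable def dpR (Lt M : Word) (n N NW r : ℕ) : Word :=
  rounds NW r fun T i => dbit Lt M T n N (i / (n + 2) / n) (i / (n + 2) % n) (i % (n + 2))

def full (M T : Word) (n c k : ℕ) : Prop :=
  k % (n + 2) = c ∧ ok T n k ∧ allt n fun v => at2 M n k v

noncomputable def cst (M T : Word) (n N : ℕ) : ℕ :=
  find (n + 2) fun c => exlt N fun k => full M T n c k

noncomputable def kst (M T : Word) (n N : ℕ) : ℕ := find N fun k => full M T n (cst M T n N) k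

noncomputable def tau (T : Word) (n k v : ℕ) : ℕ :=
  find (n + 2) fun t => 1 ≤ t ∧ at3 T n (n + 2) k v t

noncomputable def out (T : Word) (n k P : ℕ) : Word :=
  natCode n ++ flat n P fun v => natCode (tau T n k v)

noncomputable def alg3 (Lt M : Word) (n N NW P : ℕ) : Word :=
  out (dpR Lt M n N NW (n + 1)) n (kst M (dpR Lt M n N NW (n + 1)) n N) P

noncomputable def alg2 (Lt : Word) (n N P : ℕ) : Word :=
  alg3 Lt (memT Lt n (mulc N n P)) n N (mulc (mulc N n P) (n + 2) P) P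

noncomputable def alg1 (x : Word) (n P : ℕ) : Word :=
  alg2 (closT (x.drop (natCode n).length) n (mulc n n P)) n (powc (n + 2) 17 P) P

noncomputable def alg (x : Word) : Word := alg1 x (nOf x) ((x.length + 2) ^ 2 ^ 5)

section
variable {α : Type} [Rp α] {e : ℕ}

@[fun_prop] theorem ud_nOf {x : α → Word} (he : 5 ≤ e) (h1 : TD e x) : UD e fun a => nOf (x a) := by
  have := (UD.le (d := 5) (n := fun p : Word => nOf p) (by unfold nOf; td) he).comp h1
  exact this

@[fun_prop] theorem td_closT {Et : α → Word} {n n2 : α → ℕ} (he : 5 ≤ e) (h1 : TD e Et)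
    (h2 : UD e n) (h3 : UD e n2) : TD e fun a => closT (Et a) (n a) (n2 a) := by
  have := (TD.le (d := 5) (f := fun p : Word × Un × Un => closT p.1 p.2.1.val p.2.2.val)
    (by unfold closT; td) he).comp (h1.pair (TD.pair h2 h3))
  exact this

@[fun_prop] theorem td_ko {Lt : α → Word} {n u v : α → ℕ} (he : 3 ≤ e) (h1 : TD e Lt)
    (h2 : UD e n) (h3 : UD e u) (h4 : UD e v) : TD e fun a => ko (Lt a) (n a) (u a) (v a) := by
  have := (TD.le (d := 3) (f := fun p : Word × Un × Un × Un => ko p.1 p.2.1.val p.2.2.1.val p.2.2.2.val)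
    (by unfold ko cnt; td) he).comp (h1.pair (TD.pair h2 (TD.pair h3 h4)))
  exact this

@[fun_prop] theorem ud_dg {n k i : α → ℕ} (he : 3 ≤ e)
    (h2 : UD e n) (h3 : UD e k) (h4 : UD e i) : UD e fun a => dg (n a) (k a) (i a) := by
  unfold dg; td

@[fun_prop] theorem td_cellP {Lt : α → Word} {n k v : α → ℕ} (he : 4 ≤ e) (h1 : TD e Lt)
    (h2 : UD e n) (h3 : UD e k) (h4 : UD e v) : TD e fun a => cellP (Lt a) (n a) (k a) (v a) := by
  have := (TD.le (d := 4) (f := fun p : Word × Un × Un × Un => cellP p.1 p.2.1.val p.2.2.1.val p.2.2.2.val)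
    (by unfold cellP; td) he).comp (h1.pair (TD.pair h2 (TD.pair h3 h4)))
  exact this

@[fun_prop] theorem td_memT {Lt : α → Word} {n NN : α → ℕ} (he : 5 ≤ e) (h1 : TD e Lt)
    (h2 : UD e n) (h3 : UD e NN) : TD e fun a => memT (Lt a) (n a) (NN a) := by
  have := (TD.le (d := 5) (f := fun p : Word × Un × Un => memT p.1 p.2.1.val p.2.2.val)
    (by unfold memT; td) he).comp (h1.pair (TD.pair h2 h3))
  exact this

@[fun_prop] theorem td_ok {T : α → Word} {n k : α → ℕ} (he : 2 ≤ e) (h1 : TD e T)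
    (h2 : UD e n) (h3 : UD e k) : TD e fun a => ok (T a) (n a) (k a) := by
  unfold ok; td

@[fun_prop] theorem td_good {Lt M T : α → Word} {n k k1 k2 : α → ℕ} (he : 4 ≤ e) (h1 : TD e Lt)
    (h2 : TD e M) (h3 : TD e T) (h4 : UD e n) (h5 : UD e k) (h6 : UD e k1) (h7 : UD e k2) :
    TD e fun a => good (Lt a) (M a) (T a) (n a) (k a) (k1 a) (k2 a) := by
  have := (TD.le (d := 4) (f := fun p : (Word × Word × Word) × (Un × Un) × Un × Un =>
    good p.1.1 p.1.2.1 p.1.2.2 p.2.1.1.val p.2.1.2.val p.2.2.1.val p.2.2.2.val)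
    (by unfold good; td) he).comp
    ((h1.pair (h2.pair h3)).pair (TD.pair (TD.pair h4 h5) (TD.pair h6 h7)))
  exact this

@[fun_prop] theorem ud_w1 {Lt M T : α → Word} {n N k : α → ℕ} (he : 6 ≤ e) (h1 : TD e Lt)
    (h2 : TD e M) (h3 : TD e T) (h4 : UD e n) (h5 : UD e N) (h6 : UD e k) :
    UD e fun a => w1 (Lt a) (M a) (T a) (n a) (N a) (k a) := by
  have := (UD.le (d := 6) (n := fun p : (Word × Word × Word) × Un × Un × Un =>
    w1 p.1.1 p.1.2.1 p.1.2.2 p.2.1.val p.2.2.1.val p.2.2.2.val)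
    (by unfold w1; td) he).comp
    ((h1.pair (h2.pair h3)).pair (TD.pair h4 (TD.pair h5 h6)))
  exact this

@[fun_prop] theorem ud_w2 {Lt M T : α → Word} {n N k : α → ℕ} (he : 7 ≤ e) (h1 : TD e Lt)
    (h2 : TD e M) (h3 : TD e T) (h4 : UD e n) (h5 : UD e N) (h6 : UD e k) :
    UD e fun a => w2 (Lt a) (M a) (T a) (n a) (N a) (k a) := by
  have := (UD.le (d := 7) (n := fun p : (Word × Word × Word) × Un × Un × Un =>
    w2 p.1.1 p.1.2.1 p.1.2.2 p.2.1.val p.2.2.1.val p.2.2.2.val)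
    (by unfold w2; td) he).comp
    ((h1.pair (h2.pair h3)).pair (TD.pair h4 (TD.pair h5 h6)))
  exact this

@[fun_prop] theorem td_glue {M T : α → Word} {n k1 k2 v t : α → ℕ} (he : 2 ≤ e)
    (h2 : TD e M) (h3 : TD e T) (h4 : UD e n) (h5 : UD e k1) (h6 : UD e k2) (h7 : UD e v)
    (h8 : UD e t) : TD e fun a => glue (M a) (T a) (n a) (k1 a) (k2 a) (v a) (t a) := by
  unfold glue; td

@[fun_prop] theorem td_dbit {Lt M T : α → Word} {n N k v t : α → ℕ} (he : 7 ≤ e) (h1 : TD e Lt)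
    (h2 : TD e M) (h3 : TD e T) (h4 : UD e n) (h5 : UD e N) (h6 : UD e k) (h7 : UD e v)
    (h8 : UD e t) : TD e fun a => dbit (Lt a) (M a) (T a) (n a) (N a) (k a) (v a) (t a) := by
  have := (TD.le (d := 7) (f := fun p : (Word × Word × Word) × (Un × Un) × Un × Un × Un =>
    dbit p.1.1 p.1.2.1 p.1.2.2 p.2.1.1.val p.2.1.2.val p.2.2.1.val p.2.2.2.1.val p.2.2.2.2.val)
    (by unfold dbit; td) he).comp
    ((h1.pair (h2.pair h3)).pair (TD.pair (TD.pair h4 h5) (TD.pair h6 (TD.pair h7 h8))))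
  exact this

@[fun_prop] theorem td_dpR {Lt M : α → Word} {n N NW r : α → ℕ} (he : 9 ≤ e) (h1 : TD e Lt)
    (h2 : TD e M) (h4 : UD e n) (h5 : UD e N) (h6 : UD e NW) (h7 : UD e r) :
    TD e fun a => dpR (Lt a) (M a) (n a) (N a) (NW a) (r a) := by
  have := (TD.le (d := 9) (f := fun p : (Word × Word) × (Un × Un) × Un × Un =>
    dpR p.1.1 p.1.2 p.2.1.1.val p.2.1.2.val p.2.2.1.val p.2.2.2.val)
    (by unfold dpR; td) he).comp
    ((h1.pair h2).pair (TD.pair (TD.pair h4 h5) (TD.pair h6 h7)))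
  exact this

@[fun_prop] theorem td_full {M T : α → Word} {n c k : α → ℕ} (he : 3 ≤ e)
    (h2 : TD e M) (h3 : TD e T) (h4 : UD e n) (h5 : UD e c) (h6 : UD e k) :
    TD e fun a => full (M a) (T a) (n a) (c a) (k a) := by
  have := (TD.le (d := 3) (f := fun p : (Word × Word) × Un × Un × Un =>
    full p.1.1 p.1.2 p.2.1.val p.2.2.1.val p.2.2.2.val)
    (by unfold full; td) he).comp ((h2.pair h3).pair (TD.pair h4 (TD.pair h5 h6)))
  exact this

@[fun_prop] theorem ud_kst {M T : α → Word} {n N : α → ℕ} (he : 6 ≤ e)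
    (h2 : TD e M) (h3 : TD e T) (h4 : UD e n) (h5 : UD e N) :
    UD e fun a => kst (M a) (T a) (n a) (N a) := by
  have := (UD.le (d := 6) (n := fun p : (Word × Word) × Un × Un => kst p.1.1 p.1.2 p.2.1.val p.2.2.val)
    (by unfold kst cst; td) he).comp ((h2.pair h3).pair (TD.pair h4 h5))
  exact this

@[fun_prop] theorem td_out {T : α → Word} {n k P : α → ℕ} (he : 5 ≤ e) (h1 : TD e T)
    (h2 : UD e n) (h3 : UD e k) (h4 : UD e P) : TD e fun a => out (T a) (n a) (k a) (P a) := by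
  have := (TD.le (d := 5) (f := fun p : Word × Un × Un × Un => out p.1 p.2.1.val p.2.2.1.val p.2.2.2.val)
    (by unfold out tau; td) he).comp (h1.pair (TD.pair h2 (TD.pair h3 h4)))
  exact this

@[fun_prop] theorem td_alg3 {Lt M : α → Word} {n N NW P : α → ℕ} (he : 9 ≤ e) (h1 : TD e Lt)
    (h2 : TD e M) (h4 : UD e n) (h5 : UD e N) (h6 : UD e NW) (h7 : UD e P) :
    TD e fun a => alg3 (Lt a) (M a) (n a) (N a) (NW a) (P a) := by
  unfold alg3; td

@[fun_prop] theorem td_alg2 {Lt : α → Word} {n N P : α → ℕ} (he : 9 ≤ e) (h1 : TD e Lt)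
    (h4 : UD e n) (h5 : UD e N) (h7 : UD e P) : TD e fun a => alg2 (Lt a) (n a) (N a) (P a) := by
  unfold alg2; td

@[fun_prop] theorem td_alg1 {x : α → Word} {n P : α → ℕ} (he : 9 ≤ e) (h1 : TD e x)
    (h4 : UD e n) (h7 : UD e P) : TD e fun a => alg1 (x a) (n a) (P a) := by
  unfold alg1; td

end

theorem alg_time : ∃ C : ℕ, Crest.DTime.TimeBound alg fun L => C * (L + 2) ^ 150020 + C :=
  TD.timeBound_pad (d := 9) (g := fun p : Word × Un => alg1 p.1 (nOf p.1) p.2.val) (by td) 5 150020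
    (by norm_num)

end Crest.Agent.R286
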