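import Crest.Agent.R286.DP
import Crest.Prelude.Def_Sched3

/-!
Row 286: parsing, transitive closure, the linear extension and the table of cells.
-/

set_option autoImplicit false
set_option linter.unusedVariables false

namespace Crest.Agent.R286

open Crest.Agent.PT Crest.Agent.LT Finset Function Crest.Enc Crest.Sched3

theorem idx2 {a u v : ℕ} (hv : v < a) : (u * a + v) / a = u ∧ (u * a + v) % a = v :=
  ⟨by rw [add_comm, Nat.add_mul_div_right _ _ (by omega), Nat.div_eq_of_lt hv, zero_add],
    by rw [add_comm, Nat.add_mul_mod_self_right, Nat.mod_eq_of_lt hv]⟩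

theorem idx2_lt {a N u v : ℕ} (hu : u < N) (hv : v < a) : u * a + v < N * a := by nlinarith

/-- An inflationary update of a table of `N` bits is stable after `N + 1` rounds. -/
theorem rounds_fixed (N : ℕ) (g : Word → ℕ → Prop) (hg : ∀ T i, T.getD i false = true → g T i) :
    tab N (g (rounds N (N + 1) g)) = rounds N (N + 1) g := by
  classical
  set st : Word → Word := fun T => tab N (g T) with hst
  let S : ℕ → Finset ℕ := fun m => (range N).filter fun i => g (st^[m] []) i
  have hsub : ∀ m, S m ⊆ S (m + 1) := fun m i hi => by
    simp only [S, mem_filter, mem_range] at hi ⊢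
    refine ⟨hi.1, hg _ _ ?_⟩
    rw [iterate_succ_apply', hst, getD_tab]
    exact hi
  have heq : ∀ m, S m = S (m + 1) → st (st^[m + 1] []) = st^[m + 1] [] := fun m h => by
    conv_rhs => rw [iterate_succ_apply']
    refine List.map_congr_left fun i hi => ?_
    have := Finset.ext_iff.1 h i
    simp only [S, mem_filter, mem_range, List.mem_range.1 hi, true_and] at this
    exact decide_eq_decide.2 this.symm
  obtain ⟨m, hm, h⟩ : ∃ m ≤ N, S m = S (m + 1) := by
    by_contra hc
    push Not at hc
    have key : ∀ m ≤ N + 1, m ≤ (S m).card := by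
      intro m
      induction m with
      | zero => intro _; exact Nat.zero_le _
      | succ m ih =>
        intro hm
        have h1 := ih (by omega)
        have h2 := card_lt_card ((hsub m).ssubset_of_ne (hc m (by omega)))
        omega
    have h1 := key _ le_rfl
    have h2 : (S (N + 1)).card ≤ N := (card_filter_le _ _).trans (card_range _).le
    omega
  have h1 := heq m h
  have h2 : st^[N + 1] [] = st^[m + 1] [] := by
    rw [show N + 1 = (N - m) + (m + 1) by omega, iterate_add_apply, iterate_fixed h1]
  show st (st^[N + 1] []) = st^[N + 1] []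
  rw [h2, h1]

theorem closT_iff {n : ℕ} {E : Fin n → Fin n → Prop} {Et : Word}
    (hE : ∀ u v : Fin n, at2 Et n u v ↔ E u v) (u v : Fin n) :
    at2 (closT Et n (n * n)) n u v ↔ Relation.TransGen E u v := by
  set g : Word → ℕ → Prop := fun T i => T.getD i false = true ∨ Et.getD i false = true ∨
    exlt n fun w => at2 T n (i / n) w ∧ at2 Et n w (i % n) with hg
  constructor
  · have key : ∀ r (u v : Fin n), at2 (rounds (n * n) r g) n u v → Relation.TransGen E u v := by
      intro r
      induction r with
      | zero => intro u v h; simp [at2, rounds] at h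
      | succ r ih =>
        intro u v h
        rw [rounds, iterate_succ_apply', at2, getD_tab] at h
        rcases h.2 with h | h | ⟨w, hw, h1, h2⟩
        · exact ih u v h
        · exact .single ((hE u v).1 h)
        · rw [(idx2 v.2).1] at h1
          rw [(idx2 v.2).2] at h2
          exact (ih u ⟨w, hw⟩ h1).tail ((hE ⟨w, hw⟩ v).1 h2)
    exact key _ u v
  · intro h
    have hf : tab (n * n) (g (closT Et n (n * n))) = closT Et n (n * n) :=
      rounds_fixed (n * n) g fun T i h => Or.inl h
    induction h with
    | @single v h =>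
      rw [← hf, at2, getD_tab]
      exact ⟨idx2_lt u.2 v.2, Or.inr (Or.inl ((hE u v).2 h))⟩
    | @tail w v _ h ih =>
      rw [← hf, at2, getD_tab]
      refine ⟨idx2_lt u.2 v.2, Or.inr (Or.inr ⟨w, w.2, ?_, ?_⟩)⟩
      · rwa [(idx2 v.2).1]
      · rw [(idx2 v.2).2]; exact (hE w v).2 h

section
variable {n : ℕ} {lt : Fin n → Fin n → Prop} {Lt : Word}

/-- The linear extension as a number. -/
noncomputable def keyOf (Lt : Word) (n : ℕ) (v : Fin n) : ℕ := cnt Lt n v * n + v

theorem ko_iff (u v : Fin n) : ko Lt n u v ↔ keyOf Lt n u < keyOf Lt n v := by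
  have hu := u.2
  have hv := v.2
  rw [ko, keyOf, keyOf]
  rcases lt_trichotomy (cnt Lt n u) (cnt Lt n v) with h | h | h
  · refine iff_of_true (Or.inl h) ?_
    nlinarith
  · rw [h]; omega
  · refine iff_of_false (by omega) ?_
    nlinarith

theorem po_keyOf (hLt : ∀ u v : Fin n, at2 Lt n u v ↔ lt u v)
    (htr : ∀ {u v w}, lt u v → lt v w → lt u w) (hirr : ∀ v, ¬ lt v v) : PO lt (keyOf Lt n) := by
  classical
  refine ⟨htr, fun {u v} h => (ko_iff u v).1 (Or.inl ?_), fun u v h => ?_⟩
  · rw [cnt, cnt, cntlt_fin n _ (univ.filter fun w => lt w u) (fun w => by simp [hLt]),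
      cntlt_fin n _ (univ.filter fun w => lt w v) (fun w => by simp [hLt])]
    refine card_lt_card ⟨fun w hw => ?_, fun hh => ?_⟩
    · simp only [mem_filter, mem_univ, true_and] at hw ⊢; exact htr hw h
    · have := hh (show u ∈ _ by simpa using h)
      simp only [mem_filter, mem_univ, true_and] at this
      exact hirr u this
  · have h1 := ko_iff (Lt := Lt) u v
    have h2 := ko_iff (Lt := Lt) v u
    rw [ko] at h1 h2
    apply Fin.ext
    omega

theorem exists_digits (b m : ℕ) (D : ℕ → ℕ) (hD : ∀ i, D i < b) :
    ∃ k < b ^ m, ∀ i < m, k / b ^ i % b = D i := by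
  induction m generalizing D with
  | zero => exact ⟨0, by simp, by simp⟩
  | succ m ih =>
    obtain ⟨k, h1, h2⟩ := ih (fun i => D (i + 1)) fun i => hD _
    refine ⟨k * b + D 0, by rw [pow_succ]; exact idx2_lt h1 (hD 0), fun i hi => ?_⟩
    cases i with
    | zero => rw [pow_zero, Nat.div_one, (idx2 (hD 0)).2]
    | succ i => rw [pow_succ', ← Nat.div_div_eq_div_mul, (idx2 (hD 0)).1, h2 i (by omega)]

open Classical in
/-- The cell with index `k`. -/
noncomputable def cellOf (Lt : Word) (n k : ℕ) : Finset (Fin n) :=
  univ.filter fun v => cellP Lt n k v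

theorem memT_iff {N k : ℕ} (hk : k < N) (v : Fin n) :
    at2 (memT Lt n (N * n)) n k v ↔ v ∈ cellOf Lt n k := by
  rw [memT, at2, getD_tab, (idx2 v.2).1, (idx2 v.2).2, cellOf]
  simp [idx2_lt hk v.2]

/-- Code of an optional job. -/
def eo {n : ℕ} : Option (Fin n) → ℕ
  | none => n
  | some v => v

theorem eo_le (o : Option (Fin n)) : eo o ≤ n := by
  cases o with
  | none => exact le_rfl
  | some v => exact v.2.le

theorem cover (hLt : ∀ u v : Fin n, at2 Lt n u v ↔ lt u v) (J : Finset (Fin n)) (c : ℕ)
    (hJ : InFam lt (keyOf Lt n) 3 J) (hc : c < n + 2) :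
    ∃ k < (n + 2) ^ 17, cellOf Lt n k = J ∧ k % (n + 2) = c := by
  obtain ⟨Ts, T, S, h1, h2, h3, h4⟩ := hJ
  let A : ℕ → ℕ := fun i => (Ts[i]?).elim (n + 1) fun t => eo t.1
  let B : ℕ → ℕ := fun i => (Ts[i]?).elim n fun t => eo t.2
  let C : ℕ → ℕ := fun i => eo T[i]?
  let F : ℕ → ℕ := fun i => S.elim (n + 1) fun S' => eo S'[i]?
  have hA : ∀ i, A i < n + 2 := fun i => by
    simp only [A]; cases Ts[i]? with
    | none => simp
    | some t => have := eo_le t.1; simp; omega
  have hB : ∀ i, B i < n + 2 := fun i => by
    simp only [B]; cases Ts[i]? with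
    | none => simp
    | some t => have := eo_le t.2; simp; omega
  have hC : ∀ i, C i < n + 2 := fun i => by have := eo_le T[i]?; simp only [C]; omega
  have hF : ∀ i, F i < n + 2 := fun i => by
    simp only [F]; cases S with
    | none => simp
    | some S' => have := eo_le S'[i]?; simp; omega
  obtain ⟨k, hk, hd⟩ := exists_digits (n + 2) 17 (fun j => if j = 0 then c else if j < 7 then A (j - 1)
    else if j < 13 then B (j - 7) else if j < 15 then C (j - 13) else F (j - 15))
    (fun j => by split_ifs <;> first | exact hc | apply hA | apply hB | apply hC | apply hF)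
  have dA : ∀ i < 6, dg n k (i + 1) = A i := fun i hi => by
    rw [dg, dvp, hd _ (by omega), if_neg (by omega), if_pos (by omega)]; rfl
  have dB : ∀ i < 6, dg n k (i + 7) = B i := fun i hi => by
    rw [dg, dvp, hd _ (by omega), if_neg (by omega), if_neg (by omega), if_pos (by omega)]; rfl
  have dC : ∀ i < 2, dg n k (i + 13) = C i := fun i hi => by
    rw [dg, dvp, hd _ (by omega), if_neg (by omega), if_neg (by omega), if_neg (by omega),
      if_pos (by omega)]; rfl
  have dF : ∀ i < 2, dg n k (i + 15) = F i := fun i hi => by
    rw [dg, dvp, hd _ (by omega), if_neg (by omega), if_neg (by omega), if_neg (by omega),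
      if_neg (by omega)]; rfl
  refine ⟨k, hk, ?_, by simpa using hd 0 (by omega)⟩
  ext v
  have t1 : ∀ t : Term (Fin n), ((eo t.1 = n ∨ (eo t.1 < n ∧ at2 Lt n v (eo t.1))) ∧
      (n ≤ eo t.2 ∨ ko Lt n v (eo t.2))) ↔ tm lt (keyOf Lt n) t v := by
    rintro ⟨r, θ⟩
    refine and_congr ?_ ?_
    · cases r with
      | none => simp [eo]
      | some r => have := r.2; simp [eo, hLt]; omega
    · cases θ with
      | none => simp [eo]
      | some θ => simp [eo, ko_iff]
  have t0 : v ∈ cellOf Lt n k ↔ cellP Lt n k v := by simp [cellOf]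
  rw [h4, t0, cellP]
  simp only [exlt, allt]
  refine and_congr ?_ (and_congr ?_ ?_)
  · constructor
    · rintro ⟨i, hi, h⟩
      rw [dA i hi, dB i hi] at h
      simp only [A, B] at h
      cases e : Ts[i]? with
      | none => simp [e] at h
      | some t =>
        rw [e] at h
        exact ⟨t, List.mem_of_getElem? e, (t1 t).1 h⟩
    · rintro ⟨t, ht, h⟩
      obtain ⟨i, e⟩ := List.getElem?_of_mem ht
      have hi : i < 6 := by have := (List.getElem?_eq_some_iff.1 e).1; omega
      refine ⟨i, hi, ?_⟩
      rw [dA i hi, dB i hi]
      simp only [A, B, e]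
      exact (t1 t).2 h
  · constructor
    · intro h x hx
      obtain ⟨i, e⟩ := List.getElem?_of_mem hx
      have hi : i < 2 := by have := (List.getElem?_eq_some_iff.1 e).1; omega
      have := h i hi
      rw [dC i hi] at this
      simp only [C, e, eo, hLt] at this
      have hx := x.2
      exact ⟨fun h => (this.resolve_left (by omega)).1 (by rw [h]), (this.resolve_left (by omega)).2⟩
    · intro h i hi
      rw [dC i hi]
      simp only [C]
      cases e : T[i]? with
      | none => simp [eo]
      | some x =>
        have := h x (List.mem_of_getElem? e)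
        simp only [eo, hLt]
        exact Or.inr ⟨fun h => this.1 (Fin.ext h.symm), this.2⟩
  · cases S with
    | none => exact iff_of_true ⟨0, by omega, Or.inl (by rw [dF 0 (by omega)]; rfl)⟩ trivial
    | some S' =>
      have h3' := h3 S' rfl
      constructor
      · rintro ⟨i, hi, h⟩
        rw [dF i hi] at h
        simp only [F, Option.elim] at h
        cases e : S'[i]? with
        | none => simp [e, eo] at h
        | some x =>
          have hx := x.2
          simp only [e, eo, hLt] at h
          exact ⟨x, List.mem_of_getElem? e, (h.resolve_left (by omega)).2⟩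
      · rintro ⟨x, hx, h⟩
        obtain ⟨i, e⟩ := List.getElem?_of_mem hx
        have hi : i < 2 := by have := (List.getElem?_eq_some_iff.1 e).1; omega
        refine ⟨i, hi, ?_⟩
        rw [dF i hi]
        simp only [F, Option.elim, e, eo, hLt]
        exact Or.inr ⟨x.2, h⟩

end

/-! ### Parsing -/

theorem getD_flatten (a : ℕ) (l : List Word) (hl : ∀ r ∈ l, r.length = a) (u v : ℕ) (hv : v < a) :
    l.flatten.getD (u * a + v) false = (l.getD u []).getD v false := by
  induction l generalizing u with
  | nil => simp
  | cons r l ih =>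
    have hr := hl r (by simp)
    cases u with
    | zero => simp [List.getD_eq_getElem?_getD, List.getElem?_append_left (hr ▸ hv)]
    | succ u =>
      rw [List.flatten_cons, List.getD_append_right _ _ _ _ (by rw [hr]; nlinarith), hr,
        show (u + 1) * a + v - a = u * a + v by rw [add_mul]; omega,
        ih (fun r h => hl r (by simp [h])), List.getD_cons_succ]

theorem length_precCode (n : ℕ) (E : Fin n → Fin n → Bool) :
    (precCode n E).length = (natCode n).length + n * n := by
  simp [precCode, List.length_flatten, Function.comp_def]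

theorem nOf_precCode (n : ℕ) (E : Fin n → Fin n → Bool) : nOf (precCode n E) = n := by
  have hL := length_precCode n E
  have hn : n ≤ n * n := Nat.le_mul_self n
  have h1 : (precCode n E).length ≤ (natCode n).length + mulc n n (precCode n E).length := by
    rw [mulc]; omega
  refine le_antisymm (find_le (c := fun i => (precCode n E).length ≤ (natCode i).length +
    mulc i i (precCode n E).length) h1) ?_
  have h2 := find_ok (c := fun i => (precCode n E).length ≤ (natCode i).length +
    mulc i i (precCode n E).length) (show n < (precCode n E).length + 1 by omega) h1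
  change _ ≤ (natCode (nOf (precCode n E))).length +
    mulc (nOf (precCode n E)) (nOf (precCode n E)) _ at h2
  by_contra hc
  push Not at hc
  have h3 := Nat.size_le_size hc.le
  have h4 := Nat.mul_self_lt_mul_self hc
  rw [mulc, length_natCode] at h2
  rw [length_natCode] at hL
  omega

theorem drop_precCode (n : ℕ) (E : Fin n → Fin n → Bool) (u v : Fin n) :
    at2 ((precCode n E).drop (natCode n).length) n u v ↔ E u v = true := by
  rw [precCode, List.drop_left, at2, getD_flatten n _ (by simp) _ _ v.2]
  simp [List.getD_eq_getElem?_getD]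

end Crest.Agent.R286
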