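import Mathlib

/-!
Row 286 (S0431): unit jobs with precedence constraints on `m` machines. The structure theorem:
every schedulable instance has a recursive decomposition (left part, one slot, right part) all of
whose parts ("cells") lie in a family described by `O(m)` jobs.
-/

set_option autoImplicit false

namespace Crest.Agent.R286

open Finset

variable {V : Type}

/-- A strict partial order with a linear extension `key`. -/
structure PO (lt : V → V → Prop) (key : V → ℕ) : Prop where
  trans : ∀ {u v w : V}, lt u v → lt v w → lt u w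
  mono : ∀ {u v : V}, lt u v → key u < key v
  inj : Function.Injective key

/-- `σ` schedules the jobs of `J` on `m` machines in the slots `1, …, c`. -/
structure Sch (lt : V → V → Prop) (m : ℕ) (J : Finset V) (c : ℕ) (σ : V → ℕ) : Prop where
  rng : ∀ v ∈ J, 1 ≤ σ v ∧ σ v ≤ c
  cap : ∀ t, (J.filter fun v => σ v = t).card ≤ m
  prec : ∀ u ∈ J, ∀ v ∈ J, lt u v → σ u < σ v

/-- A term: the predecessors of a job (or everything), cut at a threshold (or not cut). -/
abbrev Term (V : Type) : Type := Option V × Option V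

def tm (lt : V → V → Prop) (key : V → ℕ) (t : Term V) (v : V) : Prop :=
  (∀ r, t.1 = some r → lt v r) ∧ ∀ θ, t.2 = some θ → key v < key θ

/-- The union of a list of terms. -/
def un (lt : V → V → Prop) (key : V → ℕ) (Ts : List (Term V)) (v : V) : Prop :=
  ∃ t ∈ Ts, tm lt key t v

/-- The left boundary: everything, or the successors of a list of jobs. -/
def above (lt : V → V → Prop) : Option (List V) → V → Prop
  | none, _ => True
  | some S, v => ∃ s ∈ S, lt s v

/-- The family of cells. -/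
def InFam (lt : V → V → Prop) (key : V → ℕ) (m : ℕ) (J : Finset V) : Prop :=
  ∃ (Ts : List (Term V)) (T : List V) (S : Option (List V)), Ts.length ≤ 2 * m ∧ T.length + 1 ≤ m ∧
    (∀ S', S = some S' → S'.length + 1 ≤ m) ∧
    ∀ v, v ∈ J ↔ un lt key Ts v ∧ (∀ x ∈ T, x ≠ v ∧ ¬ lt x v) ∧ above lt S v

/-- `J` splits into the left part `L`, one slot, and the right part `R`. -/
structure Split [DecidableEq V] (lt : V → V → Prop) (m : ℕ) (J L R : Finset V) : Prop where
  left : L ⊆ J
  right : R ⊆ J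
  disj : ∀ v ∈ L, v ∉ R
  cap : (J.filter fun v => v ∉ L ∧ v ∉ R).card ≤ m
  prec : ∀ u ∈ J, ∀ v ∈ J, lt u v → u ∈ L ∨ v ∈ R

/-- Decompositions of depth at most `r` inside the family, using at most `c` slots. -/
def Der [DecidableEq V] (lt : V → V → Prop) (key : V → ℕ) (m : ℕ) : ℕ → Finset V → ℕ → Prop
  | 0, _, _ => False
  | r + 1, J, c => InFam lt key m J ∧ (J = ∅ ∨ ∃ L R c₁ c₂, Der lt key m r L c₁ ∧
      Der lt key m r R c₂ ∧ c₁ + c₂ + 1 ≤ c ∧ Split lt m J L R)

/-- The structure theorem. -/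
def StructStmt : Prop :=
  ∀ (V : Type) [Fintype V] [DecidableEq V] (lt : V → V → Prop) (key : V → ℕ) (m : ℕ), 1 ≤ m →
    PO lt key → ∀ (c : ℕ) (σ : V → ℕ), Sch lt m univ c σ →
      Der lt key m (Fintype.card V + 1) univ c

/-! ### Ingredients of the proof -/

/-- `D` is a union of at most `2 m` terms, and the predecessors of the active jobs `A` lie in at most
`|A|` of them. -/
def Good (lt : V → V → Prop) (key : V → ℕ) (m : ℕ) (A : List V) (D : V → Prop) : Prop :=
  ∃ B F : List (Term V), B.length ≤ A.length ∧ B.length + F.length ≤ 2 * m ∧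
    (∀ v, D v ↔ un lt key (B ++ F) v) ∧ ∀ a ∈ A, ∀ u, lt u a → un lt key B u

/-- `ρ` is a linear extension of the down-set `D` all of whose initial segments are good. -/
structure Ord (lt : V → V → Prop) (key : V → ℕ) (m : ℕ) (D : V → Prop) (ρ : V → ℕ) : Prop where
  inj : Function.Injective ρ
  mono : ∀ u v, lt u v → D v → D u ∧ ρ u < ρ v
  seg : ∀ p, D p → Good lt key m [p] fun v => D v ∧ ρ v < ρ p

/-- The order of a configuration: the predecessors of the active jobs first, then the busy terms,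
then the free terms, each layer in the order of `key`. -/
def OrdStmt : Prop :=
  ∀ (V : Type) [Fintype V] [DecidableEq V] (lt : V → V → Prop) (key : V → ℕ) (m : ℕ), 1 ≤ m →
    PO lt key → ∀ (A : List V) (D : V → Prop), Good lt key m A D → A.length ≤ m →
      ∃ ρ : V → ℕ, Ord lt key m D ρ ∧
        (∀ a ∈ A, ∀ u, lt u a → ∀ w, (∀ a' ∈ A, ¬ lt w a') → ρ u < ρ w) ∧
        ∀ p, D p → (∀ a ∈ A, ¬ lt p a) → Good lt key m (p :: A) fun v => D v ∧ ρ v < ρ p

/-- Choosing the mates one after the other, each as high as possible in an order that depends on the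
earlier ones. `A` lists the jobs already fixed in slot `u`, `T` the remaining mates. -/
def MateStmt : Prop :=
  ∀ (V : Type) [Fintype V] [DecidableEq V] (lt : V → V → Prop) (key : V → ℕ) (m : ℕ), 1 ≤ m →
    PO lt key → ∀ (J : Finset V) (c u : ℕ) (A : List V) (D : V → Prop), Good lt key m A D →
      A.Nodup → (∀ a ∈ A, a ∈ J) → (∀ a ∈ A, ¬ D a) →
      (∃ σ, Sch lt m J c σ ∧ ∀ a ∈ A, σ a = u) →
      (∀ σ, Sch lt m J c σ → (∀ a ∈ A, σ a = u) → ∀ w ∈ J, σ w = u → w ∈ A ∨ D w) →
      ∃ (σ : V → ℕ) (T : List V) (ρ : V → ℕ), Sch lt m J c σ ∧ (∀ a ∈ A, σ a = u) ∧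
        T.length + A.length ≤ m ∧ (∀ w, w ∈ T ↔ w ∈ J ∧ σ w = u ∧ w ∉ A) ∧ Ord lt key m D ρ ∧
        (∀ z, z ∈ A ∨ z ∈ T → ∀ p, lt p z → ∀ x ∈ T, ρ p < ρ x) ∧
        ∀ σ', Sch lt m J c σ' → (∀ a ∈ A, σ' a = u) → ∀ x ∈ T, ∀ v ∈ J, D v → v ∉ T → ρ x < ρ v →
          (∀ x' ∈ T, x' ≠ x → σ' x' = u) → σ' v ≠ u

end Crest.Agent.R286
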