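import Crest.Agent.R286.Alg
import Crest.Agent.R286.Defs

/-!
Row 286: correctness of the dynamic program.
-/

set_option autoImplicit false
set_option linter.unusedVariables false

namespace Crest.Agent.R286

open Crest.Agent.PT Crest.Agent.LT Finset Function

theorem Sch.glue {V : Type} [DecidableEq V] {lt : V → V → Prop} {m : ℕ} {J L R : Finset V}
    {c c1 c2 : ℕ} {σ1 σ2 : V → ℕ} (hs : Split lt m J L R) (h1 : Sch lt m L c1 σ1)
    (h2 : Sch lt m R c2 σ2) (hc : c1 + c2 + 1 ≤ c) :
    Sch lt m J c fun v => if v ∈ L then σ1 v else if v ∈ R then σ2 v + (c1 + 1) else c1 + 1 := by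
  refine ⟨fun v hv => ?_, fun t => ?_, fun u hu v hv huv => ?_⟩
  · split_ifs with a b
    · have := h1.rng v a; omega
    · have := h2.rng v b; omega
    · omega
  · rcases lt_trichotomy t (c1 + 1) with h | h | h
    · refine le_trans (card_le_card fun v hv => ?_) (h1.cap t)
      simp only [mem_filter] at hv ⊢
      obtain ⟨-, hv⟩ := hv
      split_ifs at hv with a b
      · exact ⟨a, hv⟩
      · omega
      · omega
    · refine le_trans (card_le_card fun v hv => ?_) hs.cap
      simp only [mem_filter] at hv ⊢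
      obtain ⟨hJ, hv⟩ := hv
      split_ifs at hv with a b
      · have := h1.rng v a; omega
      · have := h2.rng v b; omega
      · exact ⟨hJ, a, b⟩
    · refine le_trans (card_le_card fun v hv => ?_) (h2.cap (t - (c1 + 1)))
      simp only [mem_filter] at hv ⊢
      obtain ⟨-, hv⟩ := hv
      split_ifs at hv with a b
      · have := h1.rng v a; omega
      · exact ⟨b, by omega⟩
      · omega
  · by_cases a : u ∈ L
    · have := h1.rng u a
      rw [if_pos a]
      split_ifs with a' b'
      · exact h1.prec u a v a' huv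
      · omega
      · omega
    · have b' : v ∈ R := (hs.prec u hu v hv huv).resolve_left a
      have a' : v ∉ L := fun h => hs.disj v h b'
      have := h2.rng v b'
      rw [if_neg a, if_neg a', if_pos b']
      split_ifs with b
      · have := h2.prec u b v b' huv; omega
      · omega

theorem idx3 {a b k v t : ℕ} (hv : v < a) (ht : t < b) :
    ((k * a + v) * b + t) / b / a = k ∧ ((k * a + v) * b + t) / b % a = v ∧
      ((k * a + v) * b + t) % b = t := by
  have h1 : ((k * a + v) * b + t) / b = k * a + v := by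
    rw [add_comm, Nat.add_mul_div_right _ _ (by omega), Nat.div_eq_of_lt ht, zero_add]
  refine ⟨?_, ?_, ?_⟩
  · rw [h1, add_comm, Nat.add_mul_div_right _ _ (by omega), Nat.div_eq_of_lt hv, zero_add]
  · rw [h1, add_comm, Nat.add_mul_mod_self_right, Nat.mod_eq_of_lt hv]
  · rw [add_comm, Nat.add_mul_mod_self_right, Nat.mod_eq_of_lt ht]

theorem idx3_lt {a b N k v t : ℕ} (hk : k < N) (hv : v < a) (ht : t < b) :
    (k * a + v) * b + t < N * a * b := by
  have h1 : k * a + v + 1 ≤ N * a := by nlinarith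
  nlinarith

theorem cntlt_fin (n : ℕ) (c : ℕ → Prop) (S : Finset (Fin n)) (h : ∀ v : Fin n, v ∈ S ↔ c v) :
    cntlt n c = S.card := by
  classical
  rw [cntlt, ← card_map Fin.valEmbedding]
  congr 1
  ext i
  simp only [mem_filter, mem_range, mem_map, Fin.valEmbedding_apply]
  constructor
  · rintro ⟨h1, h2⟩
    exact ⟨⟨i, h1⟩, (h _).2 h2, rfl⟩
  · rintro ⟨v, h1, rfl⟩
    exact ⟨v.2, (h v).1 h1⟩

section
variable {n N : ℕ} {lt : Fin n → Fin n → Prop} {cell : ℕ → Finset (Fin n)} {Lt M : Word}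

/-- Every filled record holds a schedule of its cell. -/
def Sound (lt : Fin n → Fin n → Prop) (cell : ℕ → Finset (Fin n)) (N : ℕ) (T : Word) : Prop :=
  ∀ k < N, ok T n k → ∃ σ, Sch lt 3 (cell k) (k % (n + 2)) σ ∧
    ∀ v ∈ cell k, ∀ t, 1 ≤ t → t < n + 2 → (at3 T n (n + 2) k v t ↔ t = σ v)

theorem good_iff (hLt : ∀ u v : Fin n, at2 Lt n u v ↔ lt u v)
    (hM : ∀ k < N, ∀ v : Fin n, at2 M n k v ↔ v ∈ cell k) (T : Word) {k k1 k2 : ℕ} (hk : k < N)
    (hk1 : k1 < N) (hk2 : k2 < N) :
    good Lt M T n k k1 k2 ↔ ok T n k1 ∧ ok T n k2 ∧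
      k1 % (n + 2) + k2 % (n + 2) + 1 ≤ k % (n + 2) ∧ Split lt 3 (cell k) (cell k1) (cell k2) := by
  have hc := cntlt_fin n (fun v => at2 M n k v ∧ ¬ at2 M n k1 v ∧ ¬ at2 M n k2 v)
    ((cell k).filter fun v => v ∉ cell k1 ∧ v ∉ cell k2) fun v => by
      rw [mem_filter, hM k hk, hM k1 hk1, hM k2 hk2]
  rw [good, hc]
  refine and_congr_right fun _ => and_congr_right fun _ => and_congr_right fun _ => ?_
  simp only [allt]
  constructor
  · rintro ⟨h1, h2, h3⟩
    refine ⟨fun v hv => ?_, fun v hv => ?_, fun v hv => ?_, h2, fun u hu v hv huv => ?_⟩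
    · exact (hM k hk v).1 ((h1 v v.2).1 ((hM k1 hk1 v).2 hv))
    · exact (hM k hk v).1 ((h1 v v.2).2.1 ((hM k2 hk2 v).2 hv))
    · exact fun h => (h1 v v.2).2.2 ((hM k1 hk1 v).2 hv) ((hM k2 hk2 v).2 h)
    · rw [← hM k1 hk1, ← hM k2 hk2]
      exact h3 u u.2 v v.2 ((hM k hk u).2 hu) ((hM k hk v).2 hv) ((hLt u v).2 huv)
  · intro h
    refine ⟨fun v hv => ?_, h.cap, fun u hu v hv => ?_⟩
    · have e0 := hM k hk ⟨v, hv⟩
      have e1 := hM k1 hk1 ⟨v, hv⟩
      have e2 := hM k2 hk2 ⟨v, hv⟩
      simp only at e0 e1 e2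
      rw [e0, e1, e2]
      exact ⟨fun a => h.left a, fun a => h.right a, h.disj _⟩
    · have e0 := hM k hk ⟨u, hu⟩
      have e0' := hM k hk ⟨v, hv⟩
      have e1 := hM k1 hk1 ⟨u, hu⟩
      have e2 := hM k2 hk2 ⟨v, hv⟩
      have e3 := hLt ⟨u, hu⟩ ⟨v, hv⟩
      simp only at e0 e0' e1 e2 e3
      rw [e0, e0', e1, e2, e3]
      exact fun a b c => h.prec _ a _ b c

theorem w_spec (T : Word) {k : ℕ} (h : w1 Lt M T n N k < N) :
    w2 Lt M T n N k < N ∧ good Lt M T n k (w1 Lt M T n N k) (w2 Lt M T n N k) := by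
  obtain ⟨k2, h1, h2⟩ := (find_spec N fun k1 => exlt N fun k2 => good Lt M T n k k1 k2).2.2 h
  exact ⟨(find_le (c := fun k2 => good Lt M T n k (w1 Lt M T n N k) k2) h2).trans_lt h1,
    find_ok (c := fun k2 => good Lt M T n k (w1 Lt M T n N k) k2) h1 h2⟩

theorem at3_succ (r : ℕ) {k v t : ℕ} (hk : k < N) (hv : v < n) (ht : t < n + 2) :
    at3 (dpR Lt M n N (N * n * (n + 2)) (r + 1)) n (n + 2) k v t ↔
      dbit Lt M (dpR Lt M n N (N * n * (n + 2)) r) n N k v t := by
  rw [dpR, rounds, iterate_succ_apply', at3, getD_tab, (idx3 hv ht).1, (idx3 hv ht).2.1,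
    (idx3 hv ht).2.2]
  exact and_iff_right (idx3_lt hk hv ht)

theorem dp_sound (hn : 1 ≤ n) (hLt : ∀ u v : Fin n, at2 Lt n u v ↔ lt u v)
    (hM : ∀ k < N, ∀ v : Fin n, at2 M n k v ↔ v ∈ cell k) (r : ℕ) :
    Sound lt cell N (dpR Lt M n N (N * n * (n + 2)) r) := by
  induction r with
  | zero => intro k _ h; simp [ok, at3, dpR, rounds] at h
  | succ r ih =>
    intro k hk h
    set T := dpR Lt M n N (N * n * (n + 2)) r with hT
    rw [ok, at3_succ r hk hn (by omega), ← hT] at h
    by_cases h0 : ok T n k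
    · obtain ⟨σ, h1, h2⟩ := ih k hk h0
      refine ⟨σ, h1, fun v hv t ht ht' => ?_⟩
      rw [at3_succ r hk v.2 ht', ← hT, ← h2 v hv t ht ht']
      simp [dbit, h0]
    · by_cases he : cell k = ∅
      · refine ⟨fun _ => 0, ?_, ?_⟩
        · rw [he]; exact ⟨by simp, by simp, by simp⟩
        · rw [he]; simp
      · have hw : w1 Lt M T n N k < N := by
          rcases h with h | h | h
          · exact absurd h.1 h0
          · obtain ⟨v, hv⟩ := nonempty_iff_ne_empty.2 he
            exact absurd ((hM k hk v).2 hv) (h.2.1 v v.2)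
          · exact h.2.1
        obtain ⟨hw2, hg⟩ := w_spec T hw
        rw [good_iff hLt hM T hk hw hw2] at hg
        obtain ⟨g1, g2, g3, g4⟩ := hg
        obtain ⟨σ1, a1, b1⟩ := ih _ hw g1
        obtain ⟨σ2, a2, b2⟩ := ih _ hw2 g2
        refine ⟨_, Sch.glue g4 a1 a2 g3, fun v hv t ht ht' => ?_⟩
        rw [at3_succ r hk v.2 ht', ← hT]
        have ht0 : t ≠ 0 := by omega
        simp only [dbit, h0, hw, ht0, glue, hM _ hw, hM _ hw2, false_and, and_false, false_or,
          not_false_eq_true, true_and]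
        split_ifs with a b
        · simp [a, b1 v a t ht ht']
        · have := a2.rng v b
          simp only [a, b, false_and, not_false_eq_true, true_and, not_true_eq_false, false_or,
            or_false]
          constructor
          · rintro ⟨c1, c2⟩
            rw [b2 v b _ (by omega) (by omega)] at c2
            omega
          · intro c
            refine ⟨by omega, ?_⟩
            rw [b2 v b _ (by omega) (by omega)]
            omega
        · simp [a, b]

theorem dp_complete {key : Fin n → ℕ} (hn : 1 ≤ n) (hLt : ∀ u v : Fin n, at2 Lt n u v ↔ lt u v)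
    (hM : ∀ k < N, ∀ v : Fin n, at2 M n k v ↔ v ∈ cell k)
    (hcov : ∀ J c, InFam lt key 3 J → c < n + 2 → ∃ k < N, cell k = J ∧ k % (n + 2) = c) (r : ℕ) :
    ∀ J c, Der lt key 3 r J c → ∀ k < N, cell k = J → k % (n + 2) = c →
      ok (dpR Lt M n N (N * n * (n + 2)) r) n k := by
  have hfam : ∀ r J c, Der lt key 3 r J c → InFam lt key 3 J := by
    intro r J c h
    cases r with
    | zero => exact h.elim
    | succ r => exact h.1
  induction r with
  | zero => intro J c h; exact h.elim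
  | succ r ih =>
    rintro J c ⟨-, h⟩ k hk rfl rfl
    set T := dpR Lt M n N (N * n * (n + 2)) r with hT
    rw [ok, at3_succ r hk hn (by omega), ← hT]
    by_cases h0 : ok T n k
    · exact Or.inl ⟨h0, h0⟩
    · rcases h with h | ⟨L, R, c1, c2, d1, d2, hc, hs⟩
      · refine Or.inr (Or.inl ⟨h0, fun u hu hu' => ?_, rfl⟩)
        have := (hM k hk ⟨u, hu⟩).1 hu'
        simp [h] at this
      · have hb := Nat.mod_lt k (show 0 < n + 2 by omega)
        obtain ⟨k1, hk1, rfl, rfl⟩ := hcov L c1 (hfam _ _ _ d1) (by omega)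
        obtain ⟨k2, hk2, rfl, rfl⟩ := hcov R c2 (hfam _ _ _ d2) (by omega)
        have hg := (good_iff hLt hM T hk hk1 hk2).2
          ⟨ih _ _ d1 k1 hk1 rfl rfl, ih _ _ d2 k2 hk2 rfl rfl, hc, hs⟩
        refine Or.inr (Or.inr ⟨h0, ?_, Or.inl rfl⟩)
        exact (find_le (c := fun k1 => exlt N fun k2 => good Lt M T n k k1 k2)
          ⟨k2, hk2, hg⟩).trans_lt hk1

/-- The schedule read off the final table is optimal. -/
theorem dp_final {key : Fin n → ℕ} (hS : StructStmt) (hn : 1 ≤ n) (hpo : PO lt key)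
    (hLt : ∀ u v : Fin n, at2 Lt n u v ↔ lt u v)
    (hM : ∀ k < N, ∀ v : Fin n, at2 M n k v ↔ v ∈ cell k)
    (hcov : ∀ J c, InFam lt key 3 J → c < n + 2 → ∃ k < N, cell k = J ∧ k % (n + 2) = c)
    (T : Word) (hT : T = dpR Lt M n N (N * n * (n + 2)) (n + 1)) :
    ∃ c ≤ n, Sch lt 3 univ c (fun v => tau T n (kst M T n N) v) ∧
      ∀ c' σ, Sch lt 3 univ c' σ → c ≤ c' := by
  classical
  have key1 : ∀ c σ, c < n + 2 → Sch lt 3 univ c σ → exlt N fun k => full M T n c k := by
    intro c σ hc h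
    have hd := hS (Fin n) lt key 3 (by omega) hpo c σ h
    rw [Fintype.card_fin] at hd
    obtain ⟨k, hk, h1, h2⟩ := hcov univ c hd.1 hc
    refine ⟨k, hk, h2, hT ▸ dp_complete hn hLt hM hcov _ _ _ hd k hk h1 h2, fun v hv => ?_⟩
    exact (hM k hk ⟨v, hv⟩).2 (h1 ▸ mem_univ _)
  have hmono : ∀ u v : Fin n, key u < key v →
      (univ.filter fun w => key w ≤ key u).card < (univ.filter fun w => key w ≤ key v).card := by
    intro u v h
    refine card_lt_card ⟨fun w hw => ?_, fun hh => ?_⟩
    · simp only [mem_filter, mem_univ, true_and] at hw ⊢; omega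
    · have := hh (show v ∈ _ by simp)
      simp only [mem_filter, mem_univ, true_and] at this; omega
  have h0 : Sch lt 3 univ n fun v => (univ.filter fun w => key w ≤ key v).card := by
    refine ⟨fun v _ => ⟨card_pos.2 ⟨v, by simp⟩, (card_filter_le _ _).trans (by simp)⟩, fun t => ?_,
      fun u _ v _ h => hmono u v (hpo.mono h)⟩
    refine le_trans (card_le_one.2 fun u hu v hv => hpo.inj ?_) (by omega)
    simp only [mem_filter, mem_univ, true_and] at hu hv
    rcases lt_trichotomy (key u) (key v) with h | h | h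
    · have := hmono u v h; omega
    · exact h
    · have := hmono v u h; omega
  have h1 := key1 n _ (by omega) h0
  have hc : cst M T n N ≤ n := find_le (c := fun c => exlt N fun k => full M T n c k) h1
  obtain ⟨k, hk, h2⟩ := find_ok (c := fun c => exlt N fun k => full M T n c k)
    (show n < n + 2 by omega) h1
  have hk' : kst M T n N < N :=
    (find_le (c := fun k => full M T n (cst M T n N) k) h2).trans_lt hk
  obtain ⟨f1, f2, f3⟩ := find_ok (c := fun k => full M T n (cst M T n N) k) hk h2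
  change kst M T n N % (n + 2) = cst M T n N at f1
  change ok T n (kst M T n N) at f2
  obtain ⟨σ, s1, s2⟩ := (hT ▸ dp_sound hn hLt hM (n + 1) : Sound lt cell N T) _ hk' f2
  have hu : cell (kst M T n N) = univ := eq_univ_of_forall fun v => (hM _ hk' v).1 (f3 v v.2)
  rw [hu, f1] at s1
  rw [hu] at s2
  have e : (fun v : Fin n => tau T n (kst M T n N) v) = σ := by
    funext v
    have r := s1.rng v (mem_univ _)
    have g : 1 ≤ σ v ∧ at3 T n (n + 2) (kst M T n N) v (σ v) :=
      ⟨r.1, (s2 v (mem_univ _) _ r.1 (by omega)).2 rfl⟩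
    have g1 := find_ok (c := fun t => 1 ≤ t ∧ at3 T n (n + 2) (kst M T n N) v t)
      (show σ v < n + 2 by omega) g
    have g2 := find_le (m := n + 2) (c := fun t => 1 ≤ t ∧ at3 T n (n + 2) (kst M T n N) v t) g
    exact (s2 v (mem_univ _) _ g1.1 (by omega)).1 g1.2
  refine ⟨cst M T n N, hc, e ▸ s1, fun c' σ' h' => ?_⟩
  by_cases hc' : c' < n + 2
  · exact find_le (c := fun c => exlt N fun k => full M T n c k) (key1 c' σ' hc' h')
  · omega

end

end Crest.Agent.R286
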