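import Crest.Agent.R286.Defs

/-! Row 286: choosing the mates of a slot one after the other. -/

set_option autoImplicit false

namespace Crest.Agent.R286

open Finset

namespace Mate

variable {V : Type} {lt : V → V → Prop} {key : V → ℕ} {m : ℕ}

lemma length_le [DecidableEq V] {J : Finset V} {c u : ℕ} {σ : V → ℕ} (hσ : Sch lt m J c σ)
    {A : List V} (hA : A.Nodup) (hAJ : ∀ a ∈ A, a ∈ J) (hu : ∀ a ∈ A, σ a = u) : A.length ≤ m := by
  rw [← List.toFinset_card_of_nodup hA]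
  refine le_trans (card_le_card fun a ha => ?_) (hσ.cap u)
  rw [List.mem_toFinset] at ha
  exact mem_filter.2 ⟨hAJ a ha, hu a ha⟩

lemma good_pred {A : List V} {D : V → Prop} (hG : Good lt key m A D) {a p : V} (ha : a ∈ A)
    (hp : lt p a) : D p := by
  obtain ⟨B, F, -, -, hD, hpred⟩ := hG
  obtain ⟨t, ht, hpt⟩ := hpred a ha p hp
  exact (hD p).2 ⟨t, List.mem_append_left _ ht, hpt⟩

/-- Stacking an order of an initial segment below the old order. -/
lemma stack [Fintype V] {D : V → Prop} {ρ0 ρ1 : V → ℕ} {x : V} (h0 : Ord lt key m D ρ0)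
    (h1 : Ord lt key m (fun v => D v ∧ ρ0 v < ρ0 x) ρ1) :
    ∃ ρ : V → ℕ, Ord lt key m D ρ ∧
      (∀ u v, D u ∧ ρ0 u < ρ0 x → D v ∧ ρ0 v < ρ0 x → (ρ u < ρ v ↔ ρ1 u < ρ1 v)) ∧
      ∀ u v, D u ∧ ρ0 u < ρ0 x → ¬ (D v ∧ ρ0 v < ρ0 x) → ρ u < ρ v := by
  classical
  set K := univ.sup ρ1 + 1 with hK
  have hk : ∀ v, ρ1 v < K := fun v => Nat.lt_succ_of_le (le_sup (f := ρ1) (mem_univ v))
  set ρ : V → ℕ := fun v => if D v ∧ ρ0 v < ρ0 x then ρ1 v else K + ρ0 v with hρ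
  have e1 : ∀ v, D v ∧ ρ0 v < ρ0 x → ρ v = ρ1 v := fun v hv => if_pos hv
  have e2 : ∀ v, ¬ (D v ∧ ρ0 v < ρ0 x) → ρ v = K + ρ0 v := fun v hv => if_neg hv
  clear_value ρ
  refine ⟨ρ, ⟨fun u v huv => ?_, fun u v huv hv => ⟨(h0.mono u v huv hv).1, ?_⟩, fun p hp => ?_⟩,
    fun u v hu hv => by rw [e1 u hu, e1 v hv], fun u v hu hv => ?_⟩
  · by_cases hu : D u ∧ ρ0 u < ρ0 x <;> by_cases hv : D v ∧ ρ0 v < ρ0 x
    · rw [e1 u hu, e1 v hv] at huv
      exact h1.inj huv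
    · rw [e1 u hu, e2 v hv] at huv
      have := hk u
      omega
    · rw [e2 u hu, e1 v hv] at huv
      have := hk v
      omega
    · rw [e2 u hu, e2 v hv] at huv
      exact h0.inj (by omega)
  · by_cases hv' : D v ∧ ρ0 v < ρ0 x
    · have := h1.mono u v huv hv'
      rw [e1 u this.1, e1 v hv']
      exact this.2
    · by_cases hu : D u ∧ ρ0 u < ρ0 x
      · rw [e1 u hu, e2 v hv']
        have := hk u
        omega
      · rw [e2 u hu, e2 v hv']
        have := (h0.mono u v huv hv).2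
        omega
  · by_cases hp' : D p ∧ ρ0 p < ρ0 x
    · have e : (fun v => D v ∧ ρ v < ρ p) = fun v => (D v ∧ ρ0 v < ρ0 x) ∧ ρ1 v < ρ1 p := by
        funext v
        apply propext
        by_cases hv : D v ∧ ρ0 v < ρ0 x
        · rw [e1 v hv, e1 p hp']
          exact ⟨fun h => ⟨hv, h.2⟩, fun h => ⟨hv.1, h.2⟩⟩
        · rw [e2 v hv, e1 p hp']
          have := hk p
          exact ⟨fun h => absurd h.2 (by omega), fun h => absurd h.1 hv⟩
      rw [e]
      exact h1.seg p hp'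
    · have e : (fun v => D v ∧ ρ v < ρ p) = fun v => D v ∧ ρ0 v < ρ0 p := by
        funext v
        apply propext
        have hxp : ρ0 x ≤ ρ0 p := not_lt.1 fun h => hp' ⟨hp, h⟩
        by_cases hv : D v ∧ ρ0 v < ρ0 x
        · rw [e1 v hv, e2 p hp']
          have := hk v
          have := hv.2
          exact ⟨fun h => ⟨h.1, by omega⟩, fun h => ⟨h.1, by omega⟩⟩
        · rw [e2 v hv, e2 p hp']
          exact ⟨fun h => ⟨h.1, by have := h.2; omega⟩, fun h => ⟨h.1, by have := h.2; omega⟩⟩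
      rw [e]
      exact h0.seg p hp
  · rw [e1 u hu, e2 v hv]
    have := hk u
    omega

end Mate

open Mate in
theorem mateStmt_of (h : OrdStmt) : MateStmt := by
  intro V _ _ lt key m hm hpo J c u A
  induction hn : m - A.length using Nat.strong_induction_on generalizing A with
  | _ n ih =>
  intro D hG hA hAJ hAD hex hall
  classical
  obtain ⟨σ0, hσ0, hu0⟩ := hex
  have hAm : A.length ≤ m := length_le hσ0 hA hAJ hu0
  obtain ⟨ρ0, hO0, hbot, hseg⟩ := h V lt key m hm hpo A D hG hAm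
  set W := J.filter fun w => w ∉ A ∧ ∃ σ, Sch lt m J c σ ∧ (∀ a ∈ A, σ a = u) ∧ σ w = u with hW
  have hWm : ∀ w, w ∈ W ↔
      w ∈ J ∧ w ∉ A ∧ ∃ σ, Sch lt m J c σ ∧ (∀ a ∈ A, σ a = u) ∧ σ w = u := fun w => mem_filter
  rcases W.eq_empty_or_nonempty with hE | hE
  · refine ⟨σ0, [], ρ0, hσ0, hu0, by simpa using hAm, fun w => ⟨fun hw => absurd hw List.not_mem_nil,
      fun hw => ?_⟩, hO0, fun _ _ _ _ x hx => absurd hx List.not_mem_nil,
      fun _ _ _ x hx => absurd hx List.not_mem_nil⟩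
    have : w ∈ W := (hWm w).2 ⟨hw.1, hw.2.2, σ0, hσ0, hu0, hw.2.1⟩
    rw [hE] at this
    exact absurd this (notMem_empty w)
  obtain ⟨x, hxW, hmax⟩ := exists_max_image W ρ0 hE
  obtain ⟨hxJ, hxA, σ1, hσ1, hu1, hx1⟩ := (hWm x).1 hxW
  have hDx : D x := (hall σ1 hσ1 hu1 x hxJ hx1).resolve_left hxA
  have hxa : ∀ a ∈ A, ¬ lt x a := fun a ha hl => by
    have := hσ1.prec x hxJ a (hAJ a ha) hl
    rw [hx1, hu1 a ha] at this
    exact lt_irrefl _ this
  have hA1 : (x :: A).Nodup := List.nodup_cons.2 ⟨hxA, hA⟩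
  have hAJ1 : ∀ a ∈ x :: A, a ∈ J := fun a ha => (List.mem_cons.1 ha).elim (fun e => e ▸ hxJ) (hAJ a)
  have hu1' : ∀ a ∈ x :: A, σ1 a = u := fun a ha => (List.mem_cons.1 ha).elim (fun e => e ▸ hx1) (hu1 a)
  have hlen := length_le hσ1 hA1 hAJ1 hu1'
  rw [List.length_cons] at hlen
  have hall1 : ∀ σ, Sch lt m J c σ → (∀ a ∈ A, σ a = u) → ∀ w ∈ J, σ w = u →
      w ∈ x :: A ∨ (D w ∧ ρ0 w < ρ0 x) := by
    intro σ hσ hu w hw hwu
    by_cases hwA : w ∈ A
    · exact Or.inl (List.mem_cons_of_mem _ hwA)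
    by_cases hwx : w = x
    · exact Or.inl (hwx ▸ List.mem_cons_self)
    have h1 := hmax w ((hWm w).2 ⟨hw, hwA, σ, hσ, hu, hwu⟩)
    exact Or.inr ⟨(hall σ hσ hu w hw hwu).resolve_left hwA,
      lt_of_le_of_ne h1 fun e => hwx (hO0.inj e)⟩
  obtain ⟨σ, T1, ρ1, hσ, hu, hT1, hmem, hO1, hbot1, hmax1⟩ :=
    ih (m - (x :: A).length) (by rw [List.length_cons]; omega) (x :: A) rfl
      (fun v => D v ∧ ρ0 v < ρ0 x) (hseg x hDx hxa) hA1 hAJ1
      (fun a ha h' => (List.mem_cons.1 ha).elim (fun e => lt_irrefl _ (e ▸ h'.2))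
        fun ha => hAD a ha h'.1)
      ⟨σ1, hσ1, hu1'⟩ fun σ hσ hu => hall1 σ hσ fun a ha => hu a (List.mem_cons_of_mem _ ha)
  obtain ⟨ρ, hO, hρ1, hρ2⟩ := stack hO0 hO1
  have huA : ∀ a ∈ A, σ a = u := fun a ha => hu a (List.mem_cons_of_mem _ ha)
  have hT1D : ∀ y ∈ T1, D y ∧ ρ0 y < ρ0 x := fun y hy =>
    (hall1 σ hσ huA y ((hmem y).1 hy).1 ((hmem y).1 hy).2.1).resolve_left ((hmem y).1 hy).2.2
  have hxD : ¬ (D x ∧ ρ0 x < ρ0 x) := fun h' => lt_irrefl _ h'.2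
  rw [List.length_cons] at hT1
  refine ⟨σ, x :: T1, ρ, hσ, huA, by rw [List.length_cons]; omega, fun w => ?_, hO,
    fun z hz p hp y hy => ?_, fun σ' hσ' hu' y hy v hv hDv hvT hyv hrest hvu => ?_⟩
  · rw [List.mem_cons, hmem, List.mem_cons]
    constructor
    · rintro (rfl | ⟨h1, h2, h3⟩)
      · exact ⟨hxJ, hu _ List.mem_cons_self, hxA⟩
      · exact ⟨h1, h2, fun h4 => h3 (Or.inr h4)⟩
    · rintro ⟨h1, h2, h3⟩
      by_cases hwx : w = x
      · exact Or.inl hwx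
      · exact Or.inr ⟨h1, h2, fun h4 => h4.elim hwx h3⟩
  · have hz' : z ∈ x :: A ∨ z ∈ T1 := by
      rcases hz with hz | hz
      · exact Or.inl (List.mem_cons_of_mem _ hz)
      · rcases List.mem_cons.1 hz with rfl | hz
        · exact Or.inl List.mem_cons_self
        · exact Or.inr hz
    have hpD : D p ∧ ρ0 p < ρ0 x := by
      rcases hz' with hz' | hz'
      · rcases List.mem_cons.1 hz' with rfl | hz'
        · exact hO0.mono p _ hp hDx
        · exact ⟨good_pred hG hz' hp, hbot z hz' p hp x hxa⟩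
      · exact (hO1.mono p z hp (hT1D z hz')).1
    rcases List.mem_cons.1 hy with rfl | hy
    · exact hρ2 p _ hpD hxD
    · exact (hρ1 p y hpD (hT1D y hy)).2 (hbot1 z hz' p hp y hy)
  · have hvD : D v ∧ ρ0 v < ρ0 x := by
      rcases hall1 σ' hσ' hu' v hv hvu with h1 | h1
      · rcases List.mem_cons.1 h1 with rfl | h1
        · exact absurd List.mem_cons_self hvT
        · exact absurd hDv (hAD v h1)
      · exact h1
    have hyx : y ≠ x := by
      rintro rfl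
      exact lt_asymm hyv (hρ2 v _ hvD hxD)
    have hy1 : y ∈ T1 := (List.mem_cons.1 hy).resolve_left hyx
    refine hmax1 σ' hσ' (fun a ha => ?_) y hy1 v hv hvD (fun h' => hvT (List.mem_cons_of_mem _ h'))
      ((hρ1 y v (hT1D y hy1) hvD).1 hyv)
      (fun x' hx' => hrest x' (List.mem_cons_of_mem _ hx')) hvu
    rcases List.mem_cons.1 ha with rfl | ha
    · exact hrest _ List.mem_cons_self hyx.symm
    · exact hu' a ha

end Crest.Agent.R286
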