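import Crest.Agent.R286.Defs

/-! Row 286: the order of a configuration (layers of terms, each in the order of `key`). -/

set_option autoImplicit false

namespace Crest.Agent.R286

open Finset

namespace OrdA

variable {V : Type} {lt : V → V → Prop} {key : V → ℕ}

lemma un_nil (v : V) : ¬ un lt key [] v := by simp [un]

lemma un_cons {t : Term V} {L : List (Term V)} {v : V} :
    un lt key (t :: L) v ↔ tm lt key t v ∨ un lt key L v := by simp [un]

lemma un_append {L1 L2 : List (Term V)} {v : V} :
    un lt key (L1 ++ L2) v ↔ un lt key L1 v ∨ un lt key L2 v := by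
  simp only [un, List.mem_append, or_and_right, exists_or]

lemma un_preds {A : List V} {v : V} :
    un lt key (A.map fun a => ((some a, none) : Term V)) v ↔ ∃ a ∈ A, lt v a := by
  simp [un, tm]

lemma tm_down (h : PO lt key) {t : Term V} {u v : V} (huv : lt u v) (hv : tm lt key t v) :
    tm lt key t u :=
  ⟨fun r hr => h.trans huv (hv.1 r hr), fun θ hθ => (h.mono huv).trans (hv.2 θ hθ)⟩

lemma un_down (h : PO lt key) {L : List (Term V)} {u v : V} (huv : lt u v) (hv : un lt key L v) :
    un lt key L u := by
  obtain ⟨t, ht, hv⟩ := hv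
  exact ⟨t, ht, tm_down h huv hv⟩

open Classical in
/-- The first layer containing `v`. -/
noncomputable def idx (lt : V → V → Prop) (key : V → ℕ) : List (Term V) → V → ℕ
  | [], _ => 0
  | t :: L, v => if tm lt key t v then 0 else idx lt key L v + 1

lemma idx_lt (L1 L2 : List (Term V)) (v : V) :
    idx lt key (L1 ++ L2) v < L1.length ↔ un lt key L1 v := by
  induction L1 with
  | nil => simp [un]
  | cons t L ih =>
    rw [List.cons_append, idx, un_cons, ← ih]
    by_cases h : tm lt key t v
    · simp [h]
    · simp [h]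

lemma idx_le (L1 L2 : List (Term V)) (t : Term V) (v : V) :
    idx lt key (L1 ++ t :: L2) v ≤ L1.length ↔ un lt key L1 v ∨ tm lt key t v := by
  have := idx_lt (lt := lt) (key := key) (L1 ++ [t]) L2 v
  rw [List.append_assoc, List.singleton_append, List.length_append, List.length_singleton,
    Nat.lt_succ_iff, un_append, un_cons] at this
  rw [this]
  simp [un]

lemma idx_mono (h : PO lt key) (L : List (Term V)) {u v : V} (huv : lt u v) :
    idx lt key L u ≤ idx lt key L v := by
  induction L with
  | nil => simp [idx]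
  | cons t L ih =>
    rw [idx, idx]
    by_cases hv : tm lt key t v
    · simp [hv, tm_down h huv hv]
    · by_cases hu : tm lt key t u
      · simp [hu]
      · simpa [hu, hv] using ih

lemma first_layer {L : List (Term V)} {p : V} (hp : un lt key L p) :
    ∃ L1 t L2, L = L1 ++ t :: L2 ∧ tm lt key t p ∧ ¬ un lt key L1 p := by
  induction L with
  | nil => exact absurd hp (un_nil p)
  | cons t L ih =>
    by_cases h : tm lt key t p
    · exact ⟨[], t, L, rfl, h, un_nil p⟩
    · obtain ⟨L1, t', L2, e, h1, h2⟩ := ih ((un_cons.1 hp).resolve_left h)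
      exact ⟨t :: L1, t', L2, by rw [e]; rfl, h1, fun h' => (un_cons.1 h').elim h h2⟩

/-- The layered order. -/
lemma exists_rho [Fintype V] (h : PO lt key) (L : List (Term V)) :
    ∃ ρ : V → ℕ, Function.Injective ρ ∧ ∀ u v, ρ u < ρ v ↔
      idx lt key L u < idx lt key L v ∨ (idx lt key L u = idx lt key L v ∧ key u < key v) := by
  set K := univ.sup key + 1 with hK
  have hk : ∀ v, key v < K := fun v => Nat.lt_succ_of_le (le_sup (f := key) (mem_univ v))
  have hlt : ∀ u v, idx lt key L u < idx lt key L v →
      idx lt key L u * K + key u < idx lt key L v * K + key v := by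
    intro u v huv
    have h1 : (idx lt key L u + 1) * K ≤ idx lt key L v * K := Nat.mul_le_mul_right K huv
    have h2 := hk u
    rw [Nat.add_mul, Nat.one_mul] at h1
    omega
  refine ⟨fun v => idx lt key L v * K + key v, fun u v huv => ?_, fun u v => ?_⟩
  · simp only at huv
    rcases lt_trichotomy (idx lt key L u) (idx lt key L v) with h1 | h1 | h1
    · have := hlt u v h1
      omega
    · rw [h1] at huv
      exact h.inj (by omega)
    · have := hlt v u h1
      omega
  · simp only
    rcases lt_trichotomy (idx lt key L u) (idx lt key L v) with h1 | h1 | h1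
    · exact ⟨fun _ => Or.inl h1, fun _ => hlt u v h1⟩
    · rw [h1]
      constructor
      · intro h2
        exact Or.inr ⟨rfl, by omega⟩
      · rintro (h2 | ⟨-, h2⟩)
        · omega
        · omega
    · have := hlt v u h1
      constructor
      · intro h2
        omega
      · rintro (h2 | ⟨h2, -⟩) <;> omega

/-- The initial segment below a job whose first layer is `t`. -/
lemma seg_iff {L1 L2 : List (Term V)} {t : Term V} {p : V} (hp : tm lt key t p)
    (hp1 : ¬ un lt key L1 p) {ρ : V → ℕ}
    (hρ : ∀ u v, ρ u < ρ v ↔ idx lt key (L1 ++ t :: L2) u < idx lt key (L1 ++ t :: L2) v ∨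
      (idx lt key (L1 ++ t :: L2) u = idx lt key (L1 ++ t :: L2) v ∧ key u < key v)) (v : V) :
    (un lt key (L1 ++ t :: L2) v ∧ ρ v < ρ p) ↔ tm lt key (t.1, some p) v ∨ un lt key L1 v := by
  have e : idx lt key (L1 ++ t :: L2) p = L1.length := by
    have h1 := (idx_le L1 L2 t p).2 (Or.inr hp)
    have h2 := (idx_lt (lt := lt) (key := key) L1 (t :: L2) p).not.2 hp1
    omega
  rw [hρ, e]
  constructor
  · rintro ⟨-, h1 | ⟨h1, h2⟩⟩
    · exact Or.inr ((idx_lt L1 (t :: L2) v).1 h1)
    · rcases (idx_le L1 L2 t v).1 h1.le with h3 | h3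
      · exact Or.inr h3
      · exact Or.inl ⟨h3.1, fun θ hθ => by cases hθ; exact h2⟩
  · rintro (h1 | h1)
    · have h2 : key v < key p := h1.2 p rfl
      have h3 : tm lt key t v := ⟨h1.1, fun θ hθ => h2.trans (hp.2 θ hθ)⟩
      refine ⟨un_append.2 (Or.inr (un_cons.2 (Or.inl h3))), ?_⟩
      have h4 := (idx_le L1 L2 t v).2 (Or.inr h3)
      rcases h4.lt_or_eq with h5 | h5
      · exact Or.inl h5
      · exact Or.inr ⟨h5, h2⟩
    · exact ⟨un_append.2 (Or.inl h1), Or.inl ((idx_lt L1 (t :: L2) v).2 h1)⟩

end OrdA

open OrdA in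
theorem ordStmt : OrdStmt := by
  intro V _ _ lt key m hm h A D hG hA
  obtain ⟨B, F, hB, hBF, hD, hpred⟩ := hG
  set P : List (Term V) := A.map fun a => ((some a, none) : Term V) with hP
  have hPl : P.length = A.length := List.length_map _
  have hPB : ∀ v, un lt key P v → un lt key B v := fun v hv => by
    obtain ⟨a, ha, hva⟩ := un_preds.1 hv
    exact hpred a ha v hva
  have hDL : ∀ v, D v ↔ un lt key (P ++ (B ++ F)) v := fun v => by
    rw [hD, un_append (L1 := P)]
    exact ⟨Or.inr, fun hv => hv.elim (fun hv => un_append.2 (Or.inl (hPB v hv))) id⟩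
  obtain ⟨ρ, hinj, hρ⟩ := exists_rho h (P ++ (B ++ F))
  have key1 : ∀ p, D p → ∃ (s : Term V) (B' F' : List (Term V)), B'.length ≤ A.length ∧
      1 + B'.length + F'.length ≤ 2 * m ∧
      (∀ v, (D v ∧ ρ v < ρ p) ↔ tm lt key s v ∨ un lt key B' v ∨ un lt key F' v) ∧
      (∀ u, lt u p → tm lt key s u) ∧
      ((∀ a ∈ A, ¬ lt p a) → ∀ a ∈ A, ∀ u, lt u a → un lt key B' u) := by
    intro p hp
    obtain ⟨L1, t, L2, e, h1, h2⟩ := first_layer ((hDL p).1 hp)
    have hseg : ∀ v, (D v ∧ ρ v < ρ p) ↔ tm lt key (t.1, some p) v ∨ un lt key L1 v := fun v => by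
      rw [hDL, e]
      exact seg_iff h1 h2 (by rw [← e]; exact hρ) v
    have hlow : ∀ u, lt u p → tm lt key (t.1, some p) u := fun u hu =>
      ⟨fun r hr => h.trans hu (h1.1 r hr), fun θ hθ => by cases hθ; exact h.mono hu⟩
    by_cases c1 : L1.length < P.length
    · -- a layer of predecessors
      refine ⟨(t.1, some p), [], L1, Nat.zero_le _, by simp only [List.length_nil]; omega,
        fun v => by rw [hseg]; simp [un_nil], hlow, fun hpa => ?_⟩
      exfalso
      have e1 : idx lt key (P ++ (B ++ F)) p ≤ L1.length := by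
        rw [e]; exact (idx_le L1 L2 t p).2 (Or.inr h1)
      obtain ⟨a, ha, hva⟩ := un_preds.1 ((idx_lt P (B ++ F) p).1 (lt_of_le_of_lt e1 c1))
      exact hpa a ha hva
    · obtain ⟨L1', rfl⟩ : ∃ L1', L1 = P ++ L1' := by
        rcases List.append_eq_append_iff.1 e with ⟨x, hx, -⟩ | ⟨x, hx, -⟩
        · exact ⟨x, hx⟩
        · have : x = [] := by
            have := congrArg List.length hx
            rw [List.length_append] at this
            exact List.eq_nil_of_length_eq_zero (by omega)
          exact ⟨[], by rw [hx, this, List.append_nil, List.append_nil]⟩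
      rw [List.append_assoc, List.append_cancel_left_eq] at e
      by_cases c2 : L1'.length < B.length
      · -- a busy layer
        refine ⟨(t.1, some p), P, L1', hPl.le, by omega, fun v => by rw [hseg, un_append], hlow,
          fun _ a ha u hu => un_preds.2 ⟨a, ha, hu⟩⟩
      · obtain ⟨F1, rfl⟩ : ∃ F1, L1' = B ++ F1 := by
          rcases List.append_eq_append_iff.1 e with ⟨x, hx, -⟩ | ⟨x, hx, -⟩
          · exact ⟨x, hx⟩
          · have : x = [] := by
              have := congrArg List.length hx
              rw [List.length_append] at this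
              exact List.eq_nil_of_length_eq_zero (by omega)
            exact ⟨[], by rw [hx, this, List.append_nil, List.append_nil]⟩
        rw [List.append_assoc, List.append_cancel_left_eq] at e
        have hF : F.length = F1.length + (L2.length + 1) := by
          rw [e, List.length_append, List.length_cons]
        refine ⟨(t.1, some p), B, F1, hB, by omega, fun v => ?_, hlow, fun _ => hpred⟩
        rw [hseg, un_append, un_append]
        constructor
        · rintro (h3 | h3 | h3)
          · exact Or.inl h3
          · exact Or.inr (Or.inl (hPB v h3))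
          · exact Or.inr h3
        · rintro (h3 | h3)
          · exact Or.inl h3
          · exact Or.inr (Or.inr h3)
  refine ⟨ρ, ⟨hinj, fun u v huv hv => ⟨(hD u).2 (un_down h huv ((hD v).1 hv)), ?_⟩, fun p hp => ?_⟩,
    fun a ha u hu w hw => ?_, fun p hp hpa => ?_⟩
  · rw [hρ]
    rcases (idx_mono h (P ++ (B ++ F)) huv).lt_or_eq with h1 | h1
    · exact Or.inl h1
    · exact Or.inr ⟨h1, h.mono huv⟩
  · obtain ⟨s, B', F', -, h2, h3, h4, -⟩ := key1 p hp
    refine ⟨[s], B' ++ F', le_rfl, by
      simp only [List.length_singleton, List.length_append]; omega, fun v => ?_, fun a ha u hu => ?_⟩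
    · rw [List.singleton_append, un_cons, un_append]
      exact h3 v
    · rw [List.mem_singleton] at ha
      subst ha
      exact un_cons.2 (Or.inl (h4 u hu))
  · rw [hρ]
    left
    have h1 := (idx_lt (lt := lt) (key := key) P (B ++ F) u).2 (un_preds.2 ⟨a, ha, hu⟩)
    have h2 := (idx_lt (lt := lt) (key := key) P (B ++ F) w).not.2 fun hw' => by
      obtain ⟨a', ha', hw'⟩ := un_preds.1 hw'
      exact hw a' ha' hw'
    omega
  · obtain ⟨s, B', F', h1, h2, h3, h4, h5⟩ := key1 p hp
    refine ⟨s :: B', F', by simp only [List.length_cons]; omega, by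
      simp only [List.length_cons]; omega, fun v => ?_, fun a ha u hu => ?_⟩
    · rw [List.cons_append, un_cons, un_append]
      exact h3 v
    · rcases List.mem_cons.1 ha with rfl | ha
      · exact un_cons.2 (Or.inl (h4 u hu))
      · exact un_cons.2 (Or.inr (h5 hpa a ha u hu))

end Crest.Agent.R286
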