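import Crest.Agent.R286.Defs

/-!
Row 286: the structure theorem from the order lemma and the mate lemma.
-/

set_option autoImplicit false

namespace Crest.Agent.R286

open Finset

namespace Struct

variable {V : Type} [DecidableEq V] {lt : V → V → Prop} {key : V → ℕ} {m : ℕ}

theorem swap {J : Finset V} {c : ℕ} {s : V → ℕ} (hs : Sch lt m J c s) {v x : V} (hv : v ∈ J)
    (hx : x ∈ J) (hle : s v ≤ s x) (h1 : ∀ w ∈ J, lt v w → s x < s w)
    (h2 : ∀ w ∈ J, lt w x → s w < s v) : Sch lt m J c fun w => s (Equiv.swap v x w) := by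
  have hm : ∀ w ∈ J, Equiv.swap v x w ∈ J := by
    intro w hw
    rw [Equiv.swap_apply_def]
    split_ifs <;> assumption
  refine ⟨fun w hw => hs.rng _ (hm w hw), fun t => ?_, fun a ha b hb hab => ?_⟩
  · refine le_trans (card_le_card_of_injOn (Equiv.swap v x) ?_
      (Equiv.swap v x).injective.injOn) (hs.cap t)
    intro w hw
    simp only [coe_filter, Set.mem_setOf_eq] at hw ⊢
    exact ⟨hm w hw.1, hw.2⟩
  · have h0 := hs.prec a ha b hb hab
    have k1 : a = v → s x < s b := fun h => h1 b hb (h ▸ hab)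
    have k2 : b = x → s a < s v := fun h => h2 a ha (h ▸ hab)
    simp only [Equiv.swap_apply_def]
    split_ifs with e1 e2 e3 e4 e5 e6 e7 e8
    · rw [e1, e2] at h0; omega
    · have := k1 e1; rw [e3] at this; omega
    · exact k1 e1
    · rw [e4, e5] at h0; omega
    · rw [e4, e6] at h0; omega
    · rw [e4] at h0; omega
    · rw [e7] at h0; omega
    · exact k2 e8
    · exact h0

theorem glueL {J : Finset V} {c u : ℕ} {s sL : V → ℕ} (hs : Sch lt m J c s) (hu : u ≤ c)
    (hL : Sch lt m (J.filter fun w => s w < u) (u - 1) sL) :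
    Sch lt m J c fun w => if s w < u then sL w else s w := by
  have hr : ∀ w ∈ J, s w < u → 1 ≤ sL w ∧ sL w ≤ u - 1 := fun w hw h =>
    hL.rng w (mem_filter.2 ⟨hw, h⟩)
  refine ⟨fun w hw => ?_, fun t => ?_, fun a ha b hb hab => ?_⟩
  · split_ifs with h
    · have := hr w hw h; omega
    · exact hs.rng w hw
  · by_cases ht : t < u
    · refine le_trans (card_le_card fun w hw => ?_) (hL.cap t)
      simp only [mem_filter] at hw ⊢
      obtain ⟨hw, h⟩ := hw
      split_ifs at h with h'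
      · exact ⟨⟨hw, h'⟩, h⟩
      · omega
    · refine le_trans (card_le_card fun w hw => ?_) (hs.cap t)
      simp only [mem_filter] at hw ⊢
      obtain ⟨hw, h⟩ := hw
      split_ifs at h with h'
      · have := hr w hw h'; omega
      · exact ⟨hw, h⟩
  · have h0 := hs.prec a ha b hb hab
    split_ifs with h1 h2 h2
    · exact hL.prec a (mem_filter.2 ⟨ha, h1⟩) b (mem_filter.2 ⟨hb, h2⟩) hab
    · have := hr a ha h1; omega
    · omega
    · exact h0

theorem glueR {J : Finset V} {c u : ℕ} {s sR : V → ℕ} (hs : Sch lt m J c s) (hu : u ≤ c)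
    (hR : Sch lt m (J.filter fun w => u < s w) (c - u) sR) :
    Sch lt m J c fun w => if u < s w then sR w + u else s w := by
  have hr : ∀ w ∈ J, u < s w → 1 ≤ sR w ∧ sR w ≤ c - u := fun w hw h =>
    hR.rng w (mem_filter.2 ⟨hw, h⟩)
  refine ⟨fun w hw => ?_, fun t => ?_, fun a ha b hb hab => ?_⟩
  · split_ifs with h
    · have := hr w hw h; omega
    · exact hs.rng w hw
  · by_cases ht : u < t
    · refine le_trans (card_le_card fun w hw => ?_) (hR.cap (t - u))
      simp only [mem_filter] at hw ⊢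
      obtain ⟨hw, h⟩ := hw
      split_ifs at h with h'
      · exact ⟨⟨hw, h'⟩, by omega⟩
      · omega
    · refine le_trans (card_le_card fun w hw => ?_) (hs.cap t)
      simp only [mem_filter] at hw ⊢
      obtain ⟨hw, h⟩ := hw
      split_ifs at h with h'
      · have := hr w hw h'; omega
      · exact ⟨hw, h⟩
  · have h0 := hs.prec a ha b hb hab
    split_ifs with h1 h2 h2
    · have := hR.prec a (mem_filter.2 ⟨ha, h1⟩) b (mem_filter.2 ⟨hb, h2⟩) hab
      omega
    · omega
    · have := hr b hb h2; omega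
    · exact h0

theorem schL {J : Finset V} {c : ℕ} {s : V → ℕ} (hs : Sch lt m J c s) (u : ℕ) :
    Sch lt m (J.filter fun w => s w < u) (u - 1) s := by
  refine ⟨fun w hw => ?_, fun t => ?_, fun a ha b hb hab => ?_⟩
  · obtain ⟨hw, h⟩ := mem_filter.1 hw
    have := hs.rng w hw; omega
  · exact le_trans (card_le_card (filter_subset_filter _ (filter_subset _ _))) (hs.cap t)
  · exact hs.prec a (mem_filter.1 ha).1 b (mem_filter.1 hb).1 hab

theorem schR {J : Finset V} {c : ℕ} {s : V → ℕ} (hs : Sch lt m J c s) (u : ℕ) :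
    Sch lt m (J.filter fun w => u < s w) (c - u) fun w => s w - u := by
  refine ⟨fun w hw => ?_, fun t => ?_, fun a ha b hb hab => ?_⟩
  · obtain ⟨hw, h⟩ := mem_filter.1 hw
    have := hs.rng w hw; omega
  · refine le_trans (card_le_card fun w hw => ?_) (hs.cap (t + u))
    simp only [mem_filter] at hw ⊢
    exact ⟨hw.1.1, by omega⟩
  · have := hs.prec a (mem_filter.1 ha).1 b (mem_filter.1 hb).1 hab
    have := (mem_filter.1 ha).2
    omega

/-- The invariant of the induction. -/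
structure Cell (lt : V → V → Prop) (key : V → ℕ) (m : ℕ) (J : Finset V) (c : ℕ) (D : V → Prop)
    (ρ : V → ℕ) (T : List V) (S : Option (List V)) : Prop where
  good : ∃ A, Good lt key m A D
  ord : Ord lt key m D ρ
  lenT : T.length + 1 ≤ m
  lenS : ∀ S', S = some S' → S'.length + 1 ≤ m
  memT : ∀ x ∈ T, D x
  mem : ∀ v, v ∈ J ↔ D v ∧ (∀ x ∈ T, x ≠ v ∧ ¬ lt x v) ∧ above lt S v
  ex : ∀ s, Sch lt m J c s → ∀ v ∈ J, (∀ w ∈ J, ¬ lt v w) → ∀ x ∈ T, ρ x < ρ v →
    ∃ w ∈ J, lt w x ∧ s v ≤ s w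
  sch : ∃ s, Sch lt m J c s

omit [DecidableEq V] in
theorem Cell.inFam {J : Finset V} {c : ℕ} {D : V → Prop} {ρ : V → ℕ} {T : List V}
    {S : Option (List V)} (h : Cell lt key m J c D ρ T S) : InFam lt key m J := by
  obtain ⟨A, B, F, -, h2, h3, -⟩ := h.good
  refine ⟨B ++ F, T, S, by rw [List.length_append]; exact h2, h.lenT, h.lenS, fun v => ?_⟩
  rw [h.mem, h3]

omit [DecidableEq V] in
theorem above_up (hP : PO lt key) {S : Option (List V)} {x v : V} (h : above lt S x)
    (hxv : lt x v) : above lt S v := by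
  rcases S with _ | S
  · trivial
  · obtain ⟨s, hs, h⟩ := h
    exact ⟨s, hs, hP.trans h hxv⟩

theorem step [Fintype V] (hM : MateStmt) (hm : 1 ≤ m) (hP : PO lt key) {J : Finset V} {c : ℕ}
    {D : V → Prop} {ρ : V → ℕ} {T : List V} {S : Option (List V)}
    (h : Cell lt key m J c D ρ T S) (hne : J.Nonempty) :
    ∃ L R c₁ c₂, L.card < J.card ∧ R.card < J.card ∧
      (∃ D ρ T S, Cell lt key m L c₁ D ρ T S) ∧ (∃ D ρ T S, Cell lt key m R c₂ D ρ T S) ∧
      c₁ + c₂ + 1 ≤ c ∧ Split lt m J L R := by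
  obtain ⟨y, hy, hymax⟩ := exists_max_image J ρ hne
  have hD : ∀ v ∈ J, D v := fun v hv => ((h.mem v).1 hv).1
  have hsink : ∀ w ∈ J, ¬ lt y w := fun w hw hl => by
    have := (h.ord.mono y w hl (hD w hw)).2
    have := hymax w hw
    omega
  have hlt : ∀ w ∈ J, w ≠ y → ρ w < ρ y := fun w hw hne =>
    lt_of_le_of_ne (hymax w hw) fun e => hne (h.ord.inj e)
  obtain ⟨u, ⟨s₀, hs₀, hu₀⟩, humax⟩ : ∃ u, (∃ s, Sch lt m J c s ∧ s y = u) ∧
      ∀ s, Sch lt m J c s → s y ≤ u := by
    classical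
    obtain ⟨s, hs⟩ := h.sch
    refine ⟨Nat.findGreatest (fun u => ∃ s, Sch lt m J c s ∧ s y = u) c,
      Nat.findGreatest_spec (P := fun u => ∃ s, Sch lt m J c s ∧ s y = u) (hs.rng y hy).2
        ⟨s, hs, rfl⟩, fun s' hs' => ?_⟩
    exact Nat.le_findGreatest (hs'.rng y hy).2 ⟨s', hs', rfl⟩
  have hgood := h.ord.seg y (hD y hy)
  obtain ⟨s, T₁, ρ₁, hs, hsy, hlen, hT₁, hord, hbot, hmax⟩ := hM V lt key m hm hP J c u [y] _ hgood
    (List.nodup_singleton y) (by simpa using hy) (by simp) ⟨s₀, hs₀, by simpa using hu₀⟩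
    (fun σ _ _ w hw _ => by
      by_cases e : w = y
      · exact Or.inl (by simp [e])
      · exact Or.inr ⟨hD w hw, hlt w hw e⟩)
  replace hsy : s y = u := hsy y (by simp)
  simp only [List.mem_singleton] at hT₁ hbot hmax
  rw [List.length_singleton] at hlen
  have hu := hs.rng y hy
  rw [hsy] at hu
  have hR : ∀ w ∈ J, u < s w → ∃ x ∈ T₁, lt x w := by
    intro w
    induction hn : s w using Nat.strong_induction_on generalizing w with
    | _ n ih =>
      intro hw huw
      by_contra hno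
      have hsw := swap hs hy hw (by omega) (fun z hz hl => (hsink z hz hl).elim) (fun p hp hl => by
        have h0 := hs.prec p hp w hw hl
        rcases lt_trichotomy (s p) u with h1 | h1 | h1
        · omega
        · by_cases e : p = y
          · exact (hsink w hw (e ▸ hl)).elim
          · exact (hno ⟨p, (hT₁ p).2 ⟨hp, h1, e⟩, hl⟩).elim
        · obtain ⟨x, hx, hxp⟩ := ih (s p) (by omega) p rfl hp h1
          exact (hno ⟨x, hx, hP.trans hxp hl⟩).elim)
      have := humax _ hsw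
      simp only [Equiv.swap_apply_left] at this
      omega
  refine ⟨J.filter fun w => s w < u, J.filter fun w => u < s w, u - 1, c - u,
    card_lt_card (filter_ssubset.2 ⟨y, hy, by omega⟩),
    card_lt_card (filter_ssubset.2 ⟨y, hy, by omega⟩),
    ⟨_, ρ₁, T₁, S, ⟨⟨_, hgood⟩, hord, hlen, h.lenS, fun x hx => ?_, fun v => ?_, ?_,
      ⟨s, schL hs u⟩⟩⟩,
    ⟨D, ρ, T, some T₁, ⟨h.good, h.ord, h.lenT, ?_, h.memT, fun v => ?_, ?_, ⟨_, schR hs u⟩⟩⟩,
    by omega, ⟨filter_subset _ _, filter_subset _ _, fun v hv hv' => ?_, ?_,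
      fun a ha b hb hab => ?_⟩⟩
  · obtain ⟨h1, -, h3⟩ := (hT₁ x).1 hx
    exact ⟨hD x h1, hlt x h1 h3⟩
  · rw [mem_filter]
    constructor
    · rintro ⟨hv, hsv⟩
      refine ⟨⟨hD v hv, hlt v hv fun e => by rw [e] at hsv; omega⟩, fun x hx => ?_,
        ((h.mem v).1 hv).2.2⟩
      obtain ⟨h1, h2, -⟩ := (hT₁ x).1 hx
      refine ⟨fun e => by rw [e] at h2; omega, fun hl => ?_⟩
      have := hs.prec x h1 v hv hl
      omega
    · rintro ⟨⟨hDv, hρ⟩, hnot, habv⟩
      have key' : ∀ x ∈ T, (∀ w, lt w x → lt w v) → ρ x ≤ ρ v → False := by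
        intro x hx htr hle
        obtain ⟨w, hw, hwx, hsw⟩ := h.ex s hs y hy hsink x hx (by omega)
        have hwy : w ≠ y := fun e => by
          have := (h.ord.mono w x hwx (h.memT x hx)).2
          rw [e] at this
          omega
        rcases (hsy ▸ hsw).eq_or_lt with h1 | h1
        · exact (hnot w ((hT₁ w).2 ⟨hw, h1.symm, hwy⟩)).2 (htr w hwx)
        · obtain ⟨x', hx', hl⟩ := hR w hw h1
          exact (hnot x' hx').2 (hP.trans hl (htr w hwx))
      have hv : v ∈ J := (h.mem v).2 ⟨hDv, fun x hx =>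
        ⟨fun e => key' x hx (fun w hw => e ▸ hw) (by rw [e]),
          fun hl => key' x hx (fun w hw => hP.trans hw hl) (h.ord.mono x v hl hDv).2.le⟩, habv⟩
      refine ⟨hv, ?_⟩
      rcases lt_trichotomy (s v) u with h1 | h1 | h1
      · exact h1
      · exact ((hnot v ((hT₁ v).2 ⟨hv, h1, fun e => by rw [e] at hρ; omega⟩)).1 rfl).elim
      · obtain ⟨x, hx, hl⟩ := hR v hv h1
        exact ((hnot x hx).2 hl).elim
  · intro sL hsL v hv hvs x hx hρ
    obtain ⟨hv, hsv⟩ := mem_filter.1 hv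
    obtain ⟨hxJ, hsx, hxy⟩ := (hT₁ x).1 hx
    by_contra hno
    have hg := glueL hs hu.2 hsL
    have hrv := hsL.rng v (mem_filter.2 ⟨hv, hsv⟩)
    have hvy : v ≠ y := fun e => by rw [e] at hsv; omega
    have hsw := swap hg hv hxJ (by rw [if_pos hsv, if_neg (by omega)]; omega)
      (fun w hw hl => by
        have h1 : ¬ s w < u := fun h1 => hvs w (mem_filter.2 ⟨hw, h1⟩) hl
        have h2 : s w ≠ u := fun h2 => by
          have : ρ₁ v < ρ₁ x := by
            by_cases e : w = y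
            · exact hbot w (Or.inl e) v hl x hx
            · exact hbot w (Or.inr ((hT₁ w).2 ⟨hw, h2, e⟩)) v hl x hx
          omega
        rw [if_neg h1, if_neg (by omega)]
        omega)
      (fun w hw hl => by
        have h1 : s w < u := hsx ▸ hs.prec w hw x hxJ hl
        rw [if_pos h1, if_pos hsv]
        by_contra h2
        exact hno ⟨w, mem_filter.2 ⟨hw, h1⟩, hl, by omega⟩)
    refine hmax _ hsw (fun a ha => ?_) x hx v hv ⟨hD v hv, hlt v hv hvy⟩
      (fun hvT => by have := ((hT₁ v).1 hvT).2.1; omega) hρ (fun x' hx' hne => ?_) ?_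
    · subst ha
      simp only [Equiv.swap_apply_of_ne_of_ne hvy.symm (Ne.symm hxy)]
      rw [if_neg (by omega), hsy]
    · have h1 := ((hT₁ x').1 hx').2.1
      have h2 : x' ≠ v := fun e => by rw [e] at h1; omega
      simp only [Equiv.swap_apply_of_ne_of_ne h2 hne]
      rw [if_neg (by omega), h1]
    · simp only [Equiv.swap_apply_left]
      rw [if_neg (by omega), hsx]
  · intro S' hS'
    obtain rfl := Option.some.inj hS'
    exact hlen
  · rw [mem_filter]
    constructor
    · rintro ⟨hv, hsv⟩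
      exact ⟨hD v hv, ((h.mem v).1 hv).2.1, hR v hv hsv⟩
    · rintro ⟨hDv, hnot, x, hx, hl⟩
      obtain ⟨hxJ, hsx, -⟩ := (hT₁ x).1 hx
      have hv : v ∈ J := (h.mem v).2 ⟨hDv, hnot, above_up hP ((h.mem x).1 hxJ).2.2 hl⟩
      exact ⟨hv, hsx ▸ hs.prec x hxJ v hv hl⟩
  · intro sR hsR v hv hvs x hx hρ
    obtain ⟨hv, hsv⟩ := mem_filter.1 hv
    have hrv := hsR.rng v (mem_filter.2 ⟨hv, hsv⟩)
    obtain ⟨w, hw, hl, hle⟩ := h.ex _ (glueR hs hu.2 hsR) v hv
      (fun w hw hl => hvs w (mem_filter.2 ⟨hw, hsv.trans (hs.prec v hv w hw hl)⟩) hl) x hx hρ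
    rw [if_pos hsv] at hle
    split_ifs at hle with h1
    · exact ⟨w, mem_filter.2 ⟨hw, h1⟩, hl, by omega⟩
    · omega
  · have := (mem_filter.1 hv).2
    have := (mem_filter.1 hv').2
    omega
  · refine le_trans (card_le_card fun w hw => ?_) (hs.cap u)
    simp only [mem_filter, not_and, not_lt] at hw ⊢
    exact ⟨hw.1, le_antisymm (hw.2.2 hw.1) (hw.2.1 hw.1)⟩
  · have := hs.prec a ha b hb hab
    simp only [mem_filter]
    by_cases h1 : s a < u
    · exact Or.inl ⟨ha, h1⟩
    · exact Or.inr ⟨hb, by omega⟩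

theorem der [Fintype V] (hM : MateStmt) (hm : 1 ≤ m) (hP : PO lt key) (r : ℕ) :
    ∀ (J : Finset V) (c : ℕ), J.card < r → (∃ D ρ T S, Cell lt key m J c D ρ T S) →
      Der lt key m r J c := by
  induction r with
  | zero => intro J c h; omega
  | succ r ih =>
    rintro J c hr ⟨D, ρ, T, S, h⟩
    refine ⟨h.inFam, ?_⟩
    rcases J.eq_empty_or_nonempty with hJ | hJ
    · exact Or.inl hJ
    · obtain ⟨L, R, c₁, c₂, h1, h2, h3, h4, h5, h6⟩ := step hM hm hP h hJ
      exact Or.inr ⟨L, R, c₁, c₂, ih L c₁ (by omega) h3, ih R c₂ (by omega) h4, h5, h6⟩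

end Struct

theorem structStmt_of (hO : OrdStmt) (hM : MateStmt) : StructStmt := by
  intro V _ _ lt key m hm hP c σ hσ
  have hg : Good lt key m [] fun _ => True :=
    ⟨[], [(none, none)], le_rfl, by simp only [List.length_nil, List.length_singleton]; omega,
      fun v => by simp [un, tm], by simp⟩
  obtain ⟨ρ, hρ, -⟩ := hO V lt key m hm hP [] _ hg (by simp)
  exact Struct.der hM hm hP _ univ c (by rw [card_univ]; omega)
    ⟨_, ρ, [], none, ⟨⟨_, hg⟩, hρ, by simpa using hm, by simp, by simp, by simp [above], by simp,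
      ⟨σ, hσ⟩⟩⟩

end Crest.Agent.R286
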