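import Crest.Agent.R286.Cells
import Crest.Agent.R286.Ord
import Crest.Agent.R286.Mate
import Crest.Agent.R286.Struct
import Crest.Agent.Lib.PT.Int

/-!
Row 286: correctness of the algorithm on codes of acyclic tables.
-/

set_option autoImplicit false
set_option linter.unusedVariables false

namespace Crest.Agent.R286

open Crest.Agent.PT Crest.Agent.LT Finset Function Crest.Enc Crest.Sched3

theorem alg_correct (n : ℕ) (E : Fin n → Fin n → Bool) (hn : 1 ≤ n) (hE : Acyclic E) :
    ∃ τ : Fin n → ℕ, alg (precCode n E) = listCode (List.ofFn τ) ∧ IsSchedule E τ ∧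
      ∀ τ' : Fin n → ℕ, IsSchedule E τ' → univ.sup τ ≤ univ.sup τ' := by
  have hL := length_precCode n E
  have hn2 : n ≤ n * n := Nat.le_mul_self n
  obtain ⟨P, hP⟩ : ∃ P, P = ((precCode n E).length + 2) ^ 2 ^ 5 := ⟨_, rfl⟩
  have hb : ∀ k ≤ 32, (n + 2) ^ k ≤ P := fun k hk => by
    rw [hP]
    exact (Nat.pow_le_pow_right (by omega) hk).trans (Nat.pow_le_pow_left (by omega) _)
  have c1 : mulc n n P = n * n := min_eq_left (le_trans (by nlinarith) (hb 2 (by omega)))
  have c2 : powc (n + 2) 17 P = (n + 2) ^ 17 := min_eq_left (hb 17 (by omega))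
  obtain ⟨N, hN⟩ : ∃ N, N = (n + 2) ^ 17 := ⟨_, rfl⟩
  have b3 : N * n ≤ (n + 2) ^ 18 := by
    rw [pow_succ, ← hN]; exact Nat.mul_le_mul_left _ (by omega)
  have c3 : mulc N n P = N * n := min_eq_left (b3.trans (hb 18 (by omega)))
  have c4 : mulc (N * n) (n + 2) P = N * n * (n + 2) :=
    min_eq_left ((Nat.mul_le_mul_right _ b3).trans (by rw [← pow_succ]; exact hb 19 (by omega)))
  obtain ⟨Lt, hLt'⟩ : ∃ Lt, Lt = closT ((precCode n E).drop (natCode n).length) n (n * n) :=
    ⟨_, rfl⟩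
  have hLt : ∀ u v : Fin n, at2 Lt n u v ↔ Relation.TransGen (fun u w => E u w = true) u v :=
    hLt' ▸ closT_iff (drop_precCode n E)
  have hpo := po_keyOf hLt (fun h h' => h.trans h') hE
  obtain ⟨T, hT⟩ : ∃ T, T = dpR Lt (memT Lt n (N * n)) n N (N * n * (n + 2)) (n + 1) := ⟨_, rfl⟩
  obtain ⟨c, hc, hs, hopt⟩ := dp_final (structStmt_of ordStmt (mateStmt_of ordStmt)) hn hpo hLt
    (cell := cellOf Lt n) (N := N) (fun k hk v => memT_iff hk v)
    (fun J c hJ hc => hN ▸ cover hLt J c hJ hc) T hT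
  obtain ⟨k, hk⟩ : ∃ k, k = kst (memT Lt n (N * n)) T n N := ⟨_, rfl⟩
  rw [← hk] at hs
  refine ⟨fun v => tau T n k v, ?_, ⟨fun v => (hs.rng v (mem_univ _)).1, hs.cap,
    fun u v h => hs.prec u (mem_univ _) v (mem_univ _) (.single h)⟩, fun τ' h' => ?_⟩
  · rw [alg, ← hP, nOf_precCode, alg1, c1, c2, ← hN, ← hLt', alg2, c3, c4, alg3, ← hT, ← hk, out,
      listCode, List.length_ofFn, List.map_ofFn, flat]
    have e := ofFn_flatten_eq (d := n) fun v => natCode (tau T n k v)
    rw [← e, List.take_of_length_le]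
    · rfl
    · rw [List.length_flatten]
      refine (List.sum_le_card_nsmul _ (2 * n + 2) fun l hl => ?_).trans
        (le_trans ?_ (hb 3 (by omega)))
      · simp only [List.mem_map, List.mem_ofFn] at hl
        obtain ⟨_, ⟨v, rfl⟩, rfl⟩ := hl
        have h1 := (hs.rng v (mem_univ _)).2
        have h2 : (tau T n k v).size ≤ tau T n k v := Nat.size_le.2 Nat.lt_two_pow_self
        rw [length_natCode]
        omega
      · simp only [List.length_map, List.length_ofFn, smul_eq_mul]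
        nlinarith [Nat.zero_le (n ^ 3)]
  · refine (Finset.sup_le fun v _ => (hs.rng v (mem_univ _)).2).trans (hopt _ τ' ⟨fun v _ =>
      ⟨h'.1 v, le_sup (f := τ') (mem_univ v)⟩, h'.2.1, fun u _ v _ h => ?_⟩)
    induction h with
    | single h => exact h'.2.2 _ _ h
    | tail _ h ih => exact (ih (mem_univ _)).trans (h'.2.2 _ _ h)

end Crest.Agent.R286
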